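import Vale.Agent.P262.Step.Data
import Vale.Agent.P262.Lin

/-!
# P262: the children of one step keep the interior invariants (M4)
-/

open Finset

namespace Vale.Agent.P262

variable {n d : ℕ} {P : Consts} {g : Fin d → ℝ}

namespace Step

variable {Kg : ℝ} {S : Sched P g} {v : Fin n → Fin d → ℝ} {j : ℕ} {U : Finset (Fin n)}
  {a b : Fin d → ℝ}

/-! ## The decomposition of a child -/

/-- The error of the first `l` windows, tested against `φ`. -/
noncomputable def werr (H : Data Kg S v j U a b) (φ : Fin n → ℝ) (l : ℕ) : ℝ :=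
  ∑ x ∈ rest Kg S v j U, pcoef H.f l (2 ^ (S.wd j + 1)) x * φ x

/-- The error of the transfers at boundary `k`, tested against `φ`. -/
noncomputable def berr (H : Data Kg S v j U a b) (φ : Fin n → ℝ) (k : ℕ) : ℝ :=
  if h : 0 < k ∧ k < 2 ^ S.wd j then
    (∑ x ∈ pair (rest Kg S v j U) H.f k, side H.f k x * ((if x ∈ (H.bdry k h.1 h.2).M then 1 else 0)
        - (1 / 4 + side H.f k x * (H.bdry k h.1 h.2).shift x)) * φ x)
      + (1 / 4) * (werr H φ (2 * k + 1) - 2 * werr H φ (2 * k) + werr H φ (2 * k - 1))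
      + ∑ x ∈ pair (rest Kg S v j U) H.f k, (H.bdry k h.1 h.2).shift x * φ x
  else 0

lemma Data.mem_moved {H : Data Kg S v j U a b} {k : ℕ} {x : Fin n} (hx : x ∈ H.moved k) :
    0 < k ∧ x ∈ pair (rest Kg S v j U) H.f k := by
  unfold Data.moved at hx
  split_ifs at hx with h
  · exact ⟨h.1, (H.bdry k h.1 h.2).M_subset hx⟩
  · simp at hx

lemma child_indicator (H : Data Kg S v j U a b) (k : ℕ) (x : Fin n) :
    (if H.dest x = k then (1 : ℝ) else 0)
      = (if H.f x = 2 * k then 1 else 0) + (if H.f x = 2 * k + 1 then 1 else 0)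
        - (if x ∈ H.moved k then side H.f k x else 0)
        + (if x ∈ H.moved (k + 1) then side H.f (k + 1) x else 0) := by
  have hm : ∀ q, x ∈ H.moved q → 0 < q ∧ (H.f x + 1 = 2 * q ∨ H.f x = 2 * q) := fun q hq =>
    ⟨(Data.mem_moved hq).1, (mem_filter.1 (Data.mem_moved hq).2).2⟩
  obtain ⟨q, hq | hq⟩ : ∃ q, H.f x = 2 * q ∨ H.f x = 2 * q + 1 := ⟨H.f x / 2, by omega⟩
  · have hk : x ∈ H.moved k → k = q ∧ 0 < q := fun h => by have := hm k h; omega
    have hk1 : x ∈ H.moved (k + 1) → k + 1 = q := fun h => by have := hm (k + 1) h; omega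
    have hd : H.dest x = if x ∈ H.moved q then q - 1 else q := by
      unfold Data.dest
      rw [if_pos (by omega), show H.f x / 2 = q by omega]
    rw [hd]
    by_cases hmq : x ∈ H.moved q
    · have hq0 := (hm q hmq).1
      rw [if_pos hmq]
      by_cases hkq : k = q
      · subst hkq
        have : x ∉ H.moved (k + 1) := fun h => by have := hk1 h; omega
        simp [hmq, this, hq, side]
        omega
      · by_cases hkq1 : k + 1 = q
        · subst hkq1
          have : x ∉ H.moved k := fun h => hkq (hk h).1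
          simp [hmq, this, hq, side, show ¬ (2 * (k + 1) = 2 * k + 1) by omega]
        · have h1 : x ∉ H.moved k := fun h => hkq (hk h).1
          have h2 : x ∉ H.moved (k + 1) := fun h => hkq1 (hk1 h)
          simp [h1, h2, hq, show q - 1 ≠ k by omega, show ¬ q = k by omega,
            show ¬ (2 * q = 2 * k + 1) by omega]
    · rw [if_neg hmq]
      have h1 : x ∉ H.moved k := fun h => hmq ((hk h).1 ▸ h)
      have h2 : x ∉ H.moved (k + 1) := fun h => hmq (hk1 h ▸ h)
      simp [h1, h2, hq, show ¬ (2 * q = 2 * k + 1) by omega]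
  · have hk : x ∈ H.moved k → k = q + 1 := fun h => by have := hm k h; omega
    have hk1 : x ∈ H.moved (k + 1) → k = q := fun h => by have := hm (k + 1) h; omega
    have hd : H.dest x = if x ∈ H.moved (q + 1) then q + 1 else q := by
      unfold Data.dest
      rw [if_neg (by omega), show H.f x / 2 = q by omega]
    rw [hd]
    by_cases hmq : x ∈ H.moved (q + 1)
    · rw [if_pos hmq]
      by_cases hkq : k = q
      · subst hkq
        have : x ∉ H.moved k := fun h => by have := hk h; omega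
        simp [hmq, this, hq, side,
          show ¬ (2 * k + 1 = 2 * (k + 1)) by omega]
      · by_cases hkq1 : k = q + 1
        · subst hkq1
          have : x ∉ H.moved (q + 1 + 1) := fun h => by have := hk1 h; omega
          simp [hmq, this, hq, side, show ¬ (2 * q + 1 = 2 * (q + 1)) by omega]
        · have h1 : x ∉ H.moved k := fun h => hkq1 (hk h)
          have h2 : x ∉ H.moved (k + 1) := fun h => hkq (hk1 h)
          simp [h1, h2, hq, show ¬ (2 * q + 1 = 2 * k) by omega, show ¬ q + 1 = k by omega,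
            show ¬ q = k by omega]
    · rw [if_neg hmq]
      have h1 : x ∉ H.moved k := fun h => hmq (hk h ▸ h)
      have h2 : x ∉ H.moved (k + 1) := fun h => hmq ((hk1 h) ▸ h)
      simp [h1, h2, hq, show ¬ (2 * q + 1 = 2 * k) by omega]

lemma win_sum (H : Data Kg S v j U a b) (φ : Fin n → ℝ) (l : ℕ) :
    ∑ x ∈ win (rest Kg S v j U) H.f l, φ x
      = (∑ x ∈ rest Kg S v j U, φ x) / 2 ^ (S.wd j + 1) + werr H φ (l + 1) - werr H φ l := by
  simp only [werr, win, sum_filter, sum_div, ← sum_add_distrib, ← sum_sub_distrib, pcoef]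
  refine sum_congr rfl fun x _ => ?_
  push_cast
  rcases lt_trichotomy (H.f x) l with h | h | h
  · simp [h, h.ne, show H.f x < l + 1 by omega]; ring
  · simp [h]; ring
  · simp [h.ne', h.not_gt, show ¬ H.f x < l + 1 by omega]; ring

lemma moved_sum (H : Data Kg S v j U a b) (φ : Fin n → ℝ) (k : ℕ) :
    ∑ x ∈ rest Kg S v j U, (if x ∈ H.moved k then side H.f k x else 0) * φ x = berr H φ k := by
  unfold berr Data.moved
  split_ifs with h
  swap
  · simp
  set R := rest Kg S v j U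
  set M := (H.bdry k h.1 h.2).M
  have hM : M ⊆ pair R H.f k := (H.bdry k h.1 h.2).M_subset
  have hside : ∀ x, side H.f k x * side H.f k x = 1 := fun x => by
    unfold side; split_ifs <;> norm_num
  have h1 : ∑ x ∈ R, (if x ∈ M then side H.f k x else 0) * φ x
      = ∑ x ∈ pair R H.f k, (if x ∈ M then side H.f k x else 0) * φ x := by
    refine (sum_subset (filter_subset _ _) fun x _ hx => ?_).symm
    rw [if_neg fun hm => hx (hM hm), zero_mul]
  have h2 : ∑ x ∈ pair R H.f k, side H.f k x * φ x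
      = ∑ x ∈ win R H.f (2 * k), φ x - ∑ x ∈ win R H.f (2 * k - 1), φ x := by
    simp only [pair, win, sum_filter, ← sum_sub_distrib]
    refine sum_congr rfl fun x _ => ?_
    have := h.1
    by_cases he : H.f x = 2 * k
    · simp [he, side, show ¬ (2 * k = 2 * k - 1) by omega]
    · by_cases ho : H.f x + 1 = 2 * k
      · simp [side, show H.f x = 2 * k - 1 by omega, show ¬ (2 * k - 1 = 2 * k) by omega,
          show 2 * k - 1 + 1 = 2 * k by omega]
      · simp [he, ho, show ¬ (H.f x = 2 * k - 1) by omega]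
  have h3 := h2
  rw [win_sum, win_sum, show 2 * k - 1 + 1 = 2 * k by omega] at h3
  have h4 : ∑ x ∈ pair R H.f k, (if x ∈ M then side H.f k x else 0) * φ x
      = ∑ x ∈ pair R H.f k, side H.f k x * ((if x ∈ M then 1 else 0)
          - (1 / 4 + side H.f k x * (H.bdry k h.1 h.2).shift x)) * φ x
        + 1 / 4 * ∑ x ∈ pair R H.f k, side H.f k x * φ x
        + ∑ x ∈ pair R H.f k, (H.bdry k h.1 h.2).shift x * φ x := by
    rw [mul_sum, ← sum_add_distrib, ← sum_add_distrib]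
    refine sum_congr rfl fun x _ => ?_
    have := hside x
    split_ifs <;> linear_combination ((H.bdry k h.1 h.2).shift x * φ x) * this
  rw [h1, h4, h3]
  ring

/-- A child is a fair share of the items up to rounding errors. -/
lemma child_sum (H : Data Kg S v j U a b) (φ : Fin n → ℝ) (k : ℕ) :
    ∑ x ∈ H.child k, φ x = (∑ x ∈ rest Kg S v j U, φ x) / 2 ^ S.wd j
      + (werr H φ (2 * k + 2) - werr H φ (2 * k)) - berr H φ k + berr H φ (k + 1) := by
  have h1 : ∑ x ∈ H.child k, φ x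
      = ∑ x ∈ win (rest Kg S v j U) H.f (2 * k), φ x
        + ∑ x ∈ win (rest Kg S v j U) H.f (2 * k + 1), φ x
        - berr H φ k + berr H φ (k + 1) := by
    rw [← moved_sum, ← moved_sum, Data.child, win, win, sum_filter, sum_filter, sum_filter,
      ← sum_add_distrib, ← sum_sub_distrib, ← sum_add_distrib]
    refine sum_congr rfl fun x _ => ?_
    have := child_indicator H k x
    calc (if H.dest x = k then φ x else 0) = (if H.dest x = k then (1 : ℝ) else 0) * φ x := by simp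
      _ = _ := by rw [this]; simp only [add_mul, sub_mul, ite_mul, one_mul, zero_mul]
  rw [h1, win_sum, win_sum, pow_succ]
  ring

lemma child_subset_rest (H : Data Kg S v j U a b) (k : ℕ) : H.child k ⊆ rest Kg S v j U :=
  filter_subset _ _

/-- A child lies in four windows. -/
lemma child_le_windows (H : Data Kg S v j U a b) (k : ℕ) {φ : Fin n → ℝ} (hφ : ∀ x, 0 ≤ φ x) :
    ∑ x ∈ H.child k, φ x ≤ ∑ x ∈ win (rest Kg S v j U) H.f (2 * k - 1), φ x
      + ∑ x ∈ win (rest Kg S v j U) H.f (2 * k), φ x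
      + ∑ x ∈ win (rest Kg S v j U) H.f (2 * k + 1), φ x
      + ∑ x ∈ win (rest Kg S v j U) H.f (2 * k + 2), φ x := by
  rw [Data.child, win, win, win, win, sum_filter, sum_filter, sum_filter, sum_filter, sum_filter,
    ← sum_add_distrib, ← sum_add_distrib, ← sum_add_distrib]
  refine sum_le_sum fun x _ => ?_
  have nn : ∀ (p : Prop) [Decidable p], 0 ≤ if p then φ x else 0 := fun p _ => by
    split_ifs <;> simp [hφ]
  have hx := hφ x
  by_cases hd : H.dest x = k
  · have : H.f x = 2 * k - 1 ∨ H.f x = 2 * k ∨ H.f x = 2 * k + 1 ∨ H.f x = 2 * k + 2 := by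
      unfold Data.dest at hd
      split_ifs at hd <;> omega
    rw [if_pos hd]
    have n1 := nn (H.f x = 2 * k - 1); have n2 := nn (H.f x = 2 * k)
    have n3 := nn (H.f x = 2 * k + 1); have n4 := nn (H.f x = 2 * k + 2)
    rcases this with h | h | h | h
    · rw [if_pos h]; linarith
    · rw [if_pos h]; linarith
    · rw [if_pos h] ; linarith
    · rw [if_pos h]; linarith
  · rw [if_neg hd]
    have n1 := nn (H.f x = 2 * k - 1); have n2 := nn (H.f x = 2 * k)
    have n3 := nn (H.f x = 2 * k + 1); have n4 := nn (H.f x = 2 * k + 2)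
    linarith

/-! ## The balance norm -/

/-- The balance error norm at the next step. -/
noncomputable def bnorm (S : Sched P g) (j : ℕ) (h : Fin d → Fin d → ℝ) : ℝ :=
  ∑ i ∈ S.Bal (j + 1), ∑ k ∈ S.Bal (j + 1), zWeight (S.D (j + 1) i) (S.D (j + 1) k) * h i k ^ 2

lemma bnorm_le {h : Fin d → Fin d → ℝ} {F : Fin d → Fin d → ℝ}
    (hle : ∀ i ∈ S.Bal (j + 1), ∀ k ∈ S.Bal (j + 1), h i k ^ 2 ≤ F i k) :
    bnorm S j h ≤ ∑ i ∈ S.Bal (j + 1), ∑ k ∈ S.Bal (j + 1),
      zWeight (S.D (j + 1) i) (S.D (j + 1) k) * F i k :=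
  sum_le_sum fun i hi => sum_le_sum fun k hk =>
    mul_le_mul_of_nonneg_left (hle i hi k hk) (zWeight_nonneg _ _)

lemma bnorm_comb (α β γ δ : ℝ) {h h₁ h₂ h₃ h₄ : Fin d → Fin d → ℝ}
    (hle : ∀ i ∈ S.Bal (j + 1), ∀ k ∈ S.Bal (j + 1),
      h i k ^ 2 ≤ α * h₁ i k ^ 2 + β * h₂ i k ^ 2 + γ * h₃ i k ^ 2 + δ * h₄ i k ^ 2) :
    bnorm S j h ≤ α * bnorm S j h₁ + β * bnorm S j h₂ + γ * bnorm S j h₃ + δ * bnorm S j h₄ := by
  refine (bnorm_le hle).trans (le_of_eq ?_)
  simp only [bnorm, mul_sum, ← sum_add_distrib]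
  exact sum_congr rfl fun i _ => sum_congr rfl fun k _ => by ring

lemma bnorm_omega (h : Fin d → Fin d → ℝ) :
    ∑ i, ∑ k, omega S j i k * h i k ^ 2 = bnorm S j h := by
  unfold omega bnorm
  simp [ite_and, ite_mul, sum_ite_mem]

lemma bnorm_zero : bnorm S j (fun _ _ => 0) = 0 := by simp [bnorm]

lemma omega_total :
    ∑ i, ∑ k, omega S j i k = ∑ i ∈ S.Bal (j + 1), ∑ k ∈ S.Bal (j + 1),
      zWeight (S.D (j + 1) i) (S.D (j + 1) k) := by
  unfold omega
  simp [ite_and, sum_ite_mem]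

lemma kappa_lower {C0 : ℝ} (hC : 1 ≤ C0) {w : ℕ} (hw : 1 ≤ w) :
    C0 ≤ kappa C0 w ∧ (w : ℝ) ^ (7 / 8 : ℝ) ≤ kappa C0 w := by
  have hw' : (1 : ℝ) ≤ w := by exact_mod_cast hw
  have h := Real.one_le_rpow hw' (by norm_num : (0 : ℝ) ≤ 7 / 8)
  constructor
  · exact le_mul_of_one_le_right (by linarith) h
  · exact le_mul_of_one_le_left (by linarith) hC

lemma width_kappa {C0 : ℝ} (hC : 1 ≤ C0) {w : ℕ} (hw : 1 ≤ w) :
    (w : ℝ) * (2 * (kappa C0 w * Real.sqrt (kappa C0 w))⁻¹) ≤ 2 / C0 := by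
  have hw' : (1 : ℝ) ≤ w := by exact_mod_cast hw
  obtain ⟨h1, h2⟩ := kappa_lower hC hw
  have hs : (w : ℝ) ^ (1 / 8 : ℝ) ≤ Real.sqrt (kappa C0 w) := by
    refine le_trans ?_ (Real.sqrt_le_sqrt h2)
    rw [Real.sqrt_eq_rpow, ← Real.rpow_mul (by linarith)]
    exact Real.rpow_le_rpow_of_exponent_le hw' (by norm_num)
  have hk : C0 * w ≤ kappa C0 w * Real.sqrt (kappa C0 w) := by
    calc C0 * w = C0 * (w : ℝ) ^ (7 / 8 : ℝ) * (w : ℝ) ^ (1 / 8 : ℝ) := by
          rw [mul_assoc, ← Real.rpow_add (by linarith)]; norm_num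
      _ ≤ _ := mul_le_mul_of_nonneg_left hs (zero_le_one.trans (hC.trans h1))
  rw [mul_left_comm, div_eq_mul_inv, ← div_eq_mul_inv (w : ℝ)]
  refine mul_le_mul_of_nonneg_left ?_ (by norm_num)
  rw [inv_eq_one_div, div_le_div_iff₀ (lt_of_lt_of_le (by positivity) hk) (by linarith)]
  linarith

lemma two_terms_sq (x y : ℝ) : (x - y) ^ 2 ≤ 2 * x ^ 2 + 2 * y ^ 2 := by
  nlinarith [sq_nonneg (x + y)]

lemma quad_pshare (A : Finset (Fin n)) (c : Fin n → ℝ) :
    ∑ i ∈ S.Poor j, S.theta j i * quad v A c i i = ∑ x ∈ A, c x * pshare S v j x := by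
  simp only [quad, pshare, mul_sum]
  rw [sum_comm]
  exact sum_congr rfl fun x _ => sum_congr rfl fun i _ => by ring

lemma theta_succ_poor {i : Fin d} (hi : i ∈ S.Poor j) :
    S.theta (j + 1) i = if S.wide j then S.theta j i else Real.sqrt 2 * S.theta j i := by
  have h : i ∉ S.Bal j := (mem_sdiff.1 hi).2
  simp only [Sched.theta, Sched.age, h, false_or]
  split_ifs <;> simp [pow_succ, mul_comm]

/-- The quadratic statistic of a shift is small. -/
lemma shift_bnorm {Cq : ℝ} (hC0 : 1 ≤ P.C0)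
    (hCq : ∀ (B : Finset (Fin d)) (D : Fin d → ℝ) (ε κ : ℝ), 1 ≤ κ → (∀ i ∈ B, κ ≤ D i) →
      (∀ x : ℝ, 1 ≤ x → ((B.filter fun i => D i ≤ x).card : ℝ) ≤ ε * x ^ (1 / 16 : ℝ)) →
      ∑ i ∈ B, D i ^ (-(1 / 4) : ℝ) ≤ Cq * ε * κ ^ (1 / 16 - 1 / 4 : ℝ))
    (hyp : Hyp S v j U a b) (H : Data Kg S v j U a b) {m : ℕ} (h : 0 < m ∧ m < 2 ^ S.wd j) :
    bnorm S j (quad v (pair (rest Kg S v j U) H.f m) (H.bdry m h.1 h.2).shift)
      ≤ 6 * (Cq * P.ε) ^ 2 := by
  obtain ⟨hS, hg, hv, hN⟩ := hyp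
  set w := S.wd j with hwdef
  have hw : 1 ≤ w := S.wd_pos j
  have hw' : (1 : ℝ) ≤ w := by exact_mod_cast hw
  set κ := kappa P.C0 w with hκdef
  obtain ⟨hκC, hκw⟩ := kappa_lower hC0 hw
  have hκ1 : 1 ≤ κ := by linarith
  set B := S.Bal (j + 1) with hBdef
  set D := S.D (j + 1) with hDdef
  have hDκ : ∀ i ∈ B, κ ≤ D i := fun i hi => S.kappa_le hi
  have hD1 : ∀ i ∈ B, 1 ≤ D i := fun i hi => hκ1.trans (hDκ i hi)
  have hcount := hS.good (j + 1) (Nat.succ_pos j)
  set Bd := H.bdry m h.1 h.2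
  set cst := cost S v j (rest Kg S v j U) H.f m a b
  have hcst0 : 0 ≤ cst := sum_nonneg fun i hi =>
    div_nonneg (sq_nonneg _) (zero_le_one.trans (hD1 i hi))
  refine (bnorm_le (F := fun i l => 6 * (w : ℝ) ^ (1 / 8 : ℝ) * min (D i) (D l))
    fun i hi l hl => ?_).trans ?_
  · refine (quad_sq_le_min v hv _ _ i l).trans ?_
    calc (∑ x ∈ pair (rest Kg S v j U) H.f m, Bd.shift x ^ 2)
          * min (gram v (pair (rest Kg S v j U) H.f m) i i)
            (gram v (pair (rest Kg S v j U) H.f m) l l)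
        ≤ (2 * (w : ℝ) ^ (1 / 8 : ℝ)) * (3 * min (D i) (D l)) := by
          refine mul_le_mul (Bd.shift_sq.trans (by linarith [Bd.cost_le])) ?_
            (le_min (gram_diag_nonneg v _ i) (gram_diag_nonneg v _ l)) (by positivity)
          rw [mul_min_of_nonneg _ _ (by norm_num : (0 : ℝ) ≤ 3)]
          exact min_le_min (Bd.pair_diag i hi) (Bd.pair_diag l hl)
      _ = _ := by ring
  have hterm : ∀ i ∈ B, ∀ l ∈ B, zWeight (D i) (D l) * min (D i) (D l)
      ≤ D i ^ (-(1 / 4) : ℝ) * D l ^ (-(1 / 4) : ℝ) := by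
    intro i hi l hl
    have hi1 := hD1 i hi
    have hl1 := hD1 l hl
    have hM : 0 < max (D i) (D l) := lt_of_lt_of_le (by linarith) (le_max_left _ _)
    have e1 : zWeight (D i) (D l) * min (D i) (D l) = (Real.sqrt (max (D i) (D l)))⁻¹ := by
      rw [zWeight_eq hi1 hl1, div_mul_eq_mul_div, ← min_mul_max (D i) (D l)]
      have hm : 0 < min (D i) (D l) := lt_min (by linarith) (by linarith)
      have hs : Real.sqrt (max (D i) (D l)) * Real.sqrt (max (D i) (D l)) = max (D i) (D l) :=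
        Real.mul_self_sqrt hM.le
      field_simp
      linarith
    rw [e1, Real.sqrt_eq_rpow, ← Real.rpow_neg hM.le,
      show (-(1 / 2) : ℝ) = -(1 / 4) + -(1 / 4) by norm_num, Real.rpow_add hM]
    exact mul_le_mul (Real.rpow_le_rpow_of_nonpos (by linarith) (le_max_left _ _) (by norm_num))
      (Real.rpow_le_rpow_of_nonpos (by linarith) (le_max_right _ _) (by norm_num))
      (Real.rpow_nonneg hM.le _) (Real.rpow_nonneg (by linarith) _)
  have hsum0 : 0 ≤ ∑ i ∈ B, D i ^ (-(1 / 4) : ℝ) :=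
    sum_nonneg fun i hi => Real.rpow_nonneg (zero_le_one.trans (hD1 i hi)) _
  have hq := hCq B D P.ε κ hκ1 hDκ hcount
  calc ∑ i ∈ B, ∑ l ∈ B, zWeight (D i) (D l) * (6 * (w : ℝ) ^ (1 / 8 : ℝ) * min (D i) (D l))
      ≤ ∑ i ∈ B, ∑ l ∈ B, 6 * (w : ℝ) ^ (1 / 8 : ℝ)
          * (D i ^ (-(1 / 4) : ℝ) * D l ^ (-(1 / 4) : ℝ)) := by
        refine sum_le_sum fun i hi => sum_le_sum fun l hl => ?_
        rw [mul_left_comm]
        exact mul_le_mul_of_nonneg_left (hterm i hi l hl) (by positivity)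
    _ = 6 * (w : ℝ) ^ (1 / 8 : ℝ) * (∑ i ∈ B, D i ^ (-(1 / 4) : ℝ)) ^ 2 := by
        rw [sq, sum_mul_sum]; simp only [mul_sum]
    _ ≤ 6 * (w : ℝ) ^ (1 / 8 : ℝ) * (Cq * P.ε * κ ^ (1 / 16 - 1 / 4 : ℝ)) ^ 2 := by
        gcongr
    _ = 6 * (Cq * P.ε) ^ 2 * ((w : ℝ) ^ (1 / 8 : ℝ) * κ ^ (-(3 / 8) : ℝ)) := by
        rw [mul_pow, ← Real.rpow_natCast (κ ^ (1 / 16 - 1 / 4 : ℝ)) 2,
          ← Real.rpow_mul (by linarith)]
        norm_num
        ring
    _ ≤ 6 * (Cq * P.ε) ^ 2 * 1 := by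
        refine mul_le_mul_of_nonneg_left ?_ (by positivity)
        calc (w : ℝ) ^ (1 / 8 : ℝ) * κ ^ (-(3 / 8) : ℝ)
            ≤ (w : ℝ) ^ (1 / 8 : ℝ) * ((w : ℝ) ^ (7 / 8 : ℝ)) ^ (-(3 / 8) : ℝ) := by
              refine mul_le_mul_of_nonneg_left ?_ (by positivity)
              exact Real.rpow_le_rpow_of_nonpos (by positivity) hκw (by norm_num)
          _ = (w : ℝ) ^ (-(13 / 64) : ℝ) := by
              rw [← Real.rpow_mul (by linarith), ← Real.rpow_add (by linarith)]
              norm_num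
          _ ≤ 1 := Real.rpow_le_one_of_one_le_of_nonpos hw' (by norm_num)
    _ = 6 * (Cq * P.ε) ^ 2 := mul_one _

/-- The singles are negligible. -/
lemma singles_bnorm {Cz : ℝ} (hKg' : 0 < Kg) (hC0 : 1 ≤ P.C0)
    (hCz : ∀ (B : Finset (Fin d)) (D : Fin d → ℝ) (ε κ : ℝ), 1 ≤ κ → (∀ i ∈ B, κ ≤ D i) →
      (∀ x : ℝ, 1 ≤ x → ((B.filter fun i => D i ≤ x).card : ℝ) ≤ ε * x ^ (1 / 16 : ℝ)) →
      ∑ i ∈ B, ∑ k ∈ B, zWeight (D i) (D k) ≤ Cz * ε ^ 2)
    (hyp : Hyp S v j U a b) :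
    bnorm S j (fun i l => gram v (singles Kg S v j U) i l / 2 ^ S.wd j)
      ≤ (1 / eta Kg) ^ 2 * (Cz * P.ε ^ 2) := by
  obtain ⟨hS, hg, hv, hN⟩ := hyp
  set F : ℝ := 2 ^ S.wd j
  have hF1 : 1 ≤ F := one_le_pow₀ one_le_two
  set sg := singles Kg S v j U
  have hz : ∑ i ∈ S.Bal (j + 1), ∑ l ∈ S.Bal (j + 1), zWeight (S.D (j + 1) i) (S.D (j + 1) l)
      ≤ Cz * P.ε ^ 2 :=
    hCz _ _ P.ε _ (hC0.trans (kappa_lower hC0 (S.wd_pos j)).1) (fun i hi => S.kappa_le hi)
      (hS.good (j + 1) (Nat.succ_pos j))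
  refine (bnorm_le (F := fun _ _ => (1 / eta Kg) ^ 2) fun i _ l _ => ?_).trans ?_
  · have he0 : 0 < eta Kg := by unfold eta; positivity
    have h1 : |gram v sg i l| ≤ 1 / eta Kg := by
      calc |gram v sg i l| ≤ ∑ x ∈ sg, |v x i * v x l| := abs_sum_le_sum_abs _ _
        _ ≤ ∑ _x ∈ sg, (1 : ℝ) := sum_le_sum fun x _ => by
            rw [abs_mul]
            have h2 : ∀ i, |v x i| ≤ 1 := fun i => (sq_le_one_iff_abs_le_one _).1
              ((single_le_sum (f := fun i => v x i ^ 2) (fun i _ => sq_nonneg _)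
                (mem_univ i)).trans (hv x))
            exact mul_le_one₀ (h2 i) (abs_nonneg _) (h2 l)
        _ = (sg.card : ℝ) := by simp
        _ ≤ 1 / eta Kg := by rw [le_div_iff₀ he0]; exact singles_card hKg' hN
    rw [div_pow, ← sq_abs (gram v sg i l)]
    exact (div_le_self (sq_nonneg _) (one_le_pow₀ hF1)).trans
      (pow_le_pow_left₀ (abs_nonneg _) h1 2)
  · simp only [← sum_mul]
    rw [mul_comm]
    exact mul_le_mul_of_nonneg_left hz (sq_nonneg _)

/-- The inherited error decays. -/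
lemma main_bnorm (hC0 : 1 ≤ P.C0) (hz0 : P.z0 = 1 / 16) (hyp : Hyp S v j U a b) :
    bnorm S j (fun i l => (gram v U i l - if i = l then S.D j i else 0) / 2 ^ S.wd j)
      ≤ 3 / 4 * P.z0 := by
  obtain ⟨hS, hg, hv, hN⟩ := hyp
  set w := S.wd j with hwdef
  set F : ℝ := 2 ^ w with hFdef
  have hF2 : (2 : ℝ) ≤ F := by
    calc (2 : ℝ) = 2 ^ 1 := (pow_one _).symm
      _ ≤ F := pow_le_pow_right₀ one_le_two (S.wd_pos j)
  have hF1 : 1 ≤ F := by linarith
  set B := S.Bal (j + 1) with hBdef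
  set D := S.D (j + 1) with hDdef
  have hD1 : ∀ i ∈ B, 1 ≤ D i := fun i hi =>
    (hC0.trans (kappa_lower hC0 (S.wd_pos j)).1).trans (S.kappa_le hi)
  have hsub : B ⊆ S.Bal j := S.Bal_succ_subset j
  have hDj : ∀ i, S.D j i = F * D i := fun i => by
    rw [hDdef, S.D_succ, hFdef, ← hwdef]; field_simp
  have hsF : Real.sqrt F * Real.sqrt F = F := Real.mul_self_sqrt (by linarith)
  have h43 : (4 : ℝ) / 3 ≤ Real.sqrt F := by
    rw [Real.le_sqrt (by norm_num) (by linarith)]; linarith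
  calc bnorm S j (fun i l => (gram v U i l - if i = l then S.D j i else 0) / F) ≤ ∑ i ∈ B, ∑ l ∈ B, (Real.sqrt F)⁻¹ *
        (zWeight (S.D j i) (S.D j l) * (gram v U i l - if i = l then S.D j i else 0) ^ 2) := by
        refine sum_le_sum fun i hi => sum_le_sum fun l hl => le_of_eq ?_
        have hi1 : F ≤ S.D j i := by rw [hDj]; exact le_mul_of_one_le_right (by linarith) (hD1 i hi)
        have hl1 : F ≤ S.D j l := by rw [hDj]; exact le_mul_of_one_le_right (by linarith) (hD1 l hl)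
        have hd : ∀ i, S.D (j + 1) i = S.D j i / F := fun i => S.D_succ j i
        rw [hd, hd, zWeight_div hF1 hi1 hl1, div_pow]
        field_simp
        rw [sq (Real.sqrt F), hsF]
    _ ≤ (Real.sqrt F)⁻¹ * P.z0 := by
        simp only [← mul_sum]
        refine mul_le_mul_of_nonneg_left ?_ (inv_nonneg.2 (Real.sqrt_nonneg _))
        refine le_trans ?_ hN.balance
        refine (sum_le_sum fun i _ => sum_le_sum_of_subset_of_nonneg hsub fun l _ _ =>
          mul_nonneg (zWeight_nonneg _ _) (sq_nonneg _)).trans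
          (sum_le_sum_of_subset_of_nonneg hsub fun i _ _ => sum_nonneg fun l _ =>
            mul_nonneg (zWeight_nonneg _ _) (sq_nonneg _))
    _ ≤ 3 / 4 * P.z0 := by
        refine mul_le_mul_of_nonneg_right ?_ (by rw [hz0]; norm_num)
        rw [inv_le_comm₀ (by linarith) (by norm_num)]
        linarith

/-- The balance of a child. -/
lemma child_balance {Cz Cq A : ℝ} (hKg : 0 ≤ Kg) (hC0 : 1 ≤ P.C0) (hz0 : P.z0 = 1 / 16)
    (hCz : ∀ (B : Finset (Fin d)) (D : Fin d → ℝ) (ε κ : ℝ), 1 ≤ κ → (∀ i ∈ B, κ ≤ D i) →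
      (∀ x : ℝ, 1 ≤ x → ((B.filter fun i => D i ≤ x).card : ℝ) ≤ ε * x ^ (1 / 16 : ℝ)) →
      ∑ i ∈ B, ∑ k ∈ B, zWeight (D i) (D k) ≤ Cz * ε ^ 2)
    (hCq : ∀ (B : Finset (Fin d)) (D : Fin d → ℝ) (ε κ : ℝ), 1 ≤ κ → (∀ i ∈ B, κ ≤ D i) →
      (∀ x : ℝ, 1 ≤ x → ((B.filter fun i => D i ≤ x).card : ℝ) ≤ ε * x ^ (1 / 16 : ℝ)) →
      ∑ i ∈ B, D i ^ (-(1 / 4) : ℝ) ≤ Cq * ε * κ ^ (1 / 16 - 1 / 4 : ℝ))
    (hA : A ≤ 1 / 1000000) (hA1 : Kg * (Cz * P.ε ^ 2 + 2 / P.C0) ≤ A)
    (hA2 : (1 / eta Kg) ^ 2 * (Cz * P.ε ^ 2) ≤ A) (hA3 : 6 * (Cq * P.ε) ^ 2 ≤ A)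
    (hKg' : 0 < Kg) (hyp : Hyp S v j U a b) (H : Data Kg S v j U a b) {k : ℕ}
    (hk : k < 2 ^ S.wd j) :
    bnorm S j (fun i l => gram v (H.child k) i l - if i = l then S.D (j + 1) i else 0) ≤ P.z0 := by
  obtain ⟨hS, hg, hv, hN⟩ := hyp
  set w := S.wd j with hwdef
  have hw : 1 ≤ w := S.wd_pos j
  have hw' : (1 : ℝ) ≤ w := by exact_mod_cast hw
  set F : ℝ := 2 ^ w with hFdef
  have hF2 : (2 : ℝ) ≤ F := by
    calc (2 : ℝ) = 2 ^ 1 := (pow_one _).symm
      _ ≤ F := pow_le_pow_right₀ one_le_two hw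
  have hF1 : 1 ≤ F := by linarith
  set κ := kappa P.C0 w with hκdef
  obtain ⟨hκC, hκw⟩ := kappa_lower hC0 hw
  have hκ1 : 1 ≤ κ := by linarith
  set B := S.Bal (j + 1) with hBdef
  set D := S.D (j + 1) with hDdef
  have hDκ : ∀ i ∈ B, κ ≤ D i := fun i hi => S.kappa_le hi
  have hD1 : ∀ i ∈ B, 1 ≤ D i := fun i hi => hκ1.trans (hDκ i hi)
  have hcount := hS.good (j + 1) (Nat.succ_pos j)
  have hz : ∑ i ∈ B, ∑ l ∈ B, zWeight (D i) (D l) ≤ Cz * P.ε ^ 2 :=
    hCz B D P.ε κ hκ1 hDκ hcount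
  have hzn : ∀ i l, 0 ≤ zWeight (D i) (D l) := fun i l => zWeight_nonneg _ _
  set sg := singles Kg S v j U with hsg
  set φ : Fin d → Fin d → Fin n → ℝ := fun i l x => v x i * v x l with hφdef
  set e : ℕ → Fin d → Fin d → ℝ := fun m i l => werr H (φ i l) m with hedef
  set τ : ℕ → Fin d → Fin d → ℝ := fun m i l => berr H (φ i l) m with hτdef
  have hfresh : ∀ (W : Finset (Fin n)) (c : Fin n → ℝ) (u : ℕ), 1 ≤ u → u ≤ w →
      Fresh Kg u S v j W c → bnorm S j (quad v W c) ≤ A := by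
    intro W c u hu1 hu h
    have := h.bal
    rw [bnorm_omega, omega_total] at this
    refine this.trans (le_trans (mul_le_mul_of_nonneg_left (add_le_add hz ?_) hKg) hA1)
    refine le_trans (mul_le_mul_of_nonneg_right (Nat.cast_le.2 hu) ?_) (width_kappa hC0 hw)
    positivity
  have he : ∀ m, m ≤ 2 ^ (w + 1) → bnorm S j (e m) ≤ A := fun m hm =>
    hfresh _ _ w hw le_rfl (H.fresh m hm)
  have hA0 : 0 ≤ A := le_trans (sum_nonneg fun i _ => sum_nonneg fun l _ =>
    mul_nonneg (hzn i l) (sq_nonneg _)) (he 0 (Nat.zero_le _))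
  have hX : ∀ (m : ℕ) (h : 0 < m ∧ m < 2 ^ w),
      bnorm S j (quad v (pair (rest Kg S v j U) H.f m) (H.bdry m h.1 h.2).shift) ≤ A := by
    intro m h
    exact (shift_bnorm hC0 hCq ⟨hS, hg, hv, hN⟩ H h).trans hA3
  have hτ : ∀ m, bnorm S j (τ m) ≤ 12 * A := by
    intro m
    by_cases h : 0 < m ∧ m < 2 ^ w
    · have hlt : 2 * m + 1 ≤ 2 ^ (w + 1) := by rw [pow_succ]; omega
      set q : Fin d → Fin d → ℝ := fun i l =>
        1 / 4 * (e (2 * m + 1) i l - 2 * e (2 * m) i l + e (2 * m - 1) i l)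
      have hq : bnorm S j q ≤ 2 * A := by
        refine (bnorm_comb (3 / 16) (12 / 16) (3 / 16) 0 (h₁ := e (2 * m + 1)) (h₂ := e (2 * m))
          (h₃ := e (2 * m - 1)) (h₄ := fun _ _ => 0) fun i _ l _ => ?_).trans ?_
        · simp only [q]
          nlinarith [sq_nonneg (e (2 * m + 1) i l + 2 * e (2 * m) i l),
            sq_nonneg (e (2 * m + 1) i l - e (2 * m - 1) i l),
            sq_nonneg (2 * e (2 * m) i l + e (2 * m - 1) i l)]
        · linarith [he (2 * m + 1) hlt, he (2 * m) (by omega), he (2 * m - 1) (by omega)]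
      have hC := hfresh _ _ 1 le_rfl hw (H.bdry m h.1 h.2).fresh
      refine (bnorm_comb 3 3 3 0
        (h₁ := quad v (pair (rest Kg S v j U) H.f m) (fun x => side H.f m x *
          ((if x ∈ (H.bdry m h.1 h.2).M then 1 else 0)
            - (1 / 4 + side H.f m x * (H.bdry m h.1 h.2).shift x))))
        (h₂ := q)
        (h₃ := quad v (pair (rest Kg S v j U) H.f m) (H.bdry m h.1 h.2).shift)
        (h₄ := fun _ _ => 0) fun i _ l _ => ?_).trans ?_
      · have hb : τ m i l = quad v (pair (rest Kg S v j U) H.f m) (fun x => side H.f m x *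
            ((if x ∈ (H.bdry m h.1 h.2).M then 1 else 0)
              - (1 / 4 + side H.f m x * (H.bdry m h.1 h.2).shift x))) i l
            + q i l + quad v (pair (rest Kg S v j U) H.f m) (H.bdry m h.1 h.2).shift i l := by
          simp only [τ, q, e, berr, quad, φ]
          rw [dif_pos h]
        set x1 := quad v (pair (rest Kg S v j U) H.f m) (fun x => side H.f m x *
            ((if x ∈ (H.bdry m h.1 h.2).M then 1 else 0)
              - (1 / 4 + side H.f m x * (H.bdry m h.1 h.2).shift x))) i l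
        set x3 := quad v (pair (rest Kg S v j U) H.f m) (H.bdry m h.1 h.2).shift i l
        rw [hb]
        nlinarith [sq_nonneg (x1 - q i l), sq_nonneg (x1 - x3), sq_nonneg (q i l - x3)]
      · linarith [hX m h]
    · have : τ m = fun _ _ => 0 := by
        funext i l
        simp only [τ, berr]
        rw [dif_neg h]
      rw [this, bnorm_zero]
      linarith
  set p : Fin d → Fin d → ℝ := fun i l => e (2 * k + 2) i l - e (2 * k) i l
  set q : Fin d → Fin d → ℝ := fun i l => τ (k + 1) i l - τ k i l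
  set r : Fin d → Fin d → ℝ := fun i l => gram v sg i l / F
  set main : Fin d → Fin d → ℝ := fun i l => (gram v U i l - if i = l then S.D j i else 0) / F
  have hkk : 2 * k + 2 ≤ 2 ^ (w + 1) := by rw [pow_succ]; omega
  have hp : bnorm S j p ≤ 4 * A := by
    refine (bnorm_comb 2 2 0 0 (h₁ := e (2 * k + 2)) (h₂ := e (2 * k)) (h₃ := fun _ _ => 0)
      (h₄ := fun _ _ => 0) fun i _ l _ => ?_).trans ?_
    · simpa [p] using two_terms_sq (e (2 * k + 2) i l) (e (2 * k) i l)
    · linarith [he (2 * k + 2) hkk, he (2 * k) (by omega)]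
  have hq : bnorm S j q ≤ 48 * A := by
    refine (bnorm_comb 2 2 0 0 (h₁ := τ (k + 1)) (h₂ := τ k) (h₃ := fun _ _ => 0)
      (h₄ := fun _ _ => 0) fun i _ l _ => ?_).trans ?_
    · simpa [q] using two_terms_sq (τ (k + 1) i l) (τ k i l)
    · linarith [hτ (k + 1), hτ k]
  have hr : bnorm S j r ≤ A := by
    exact (singles_bnorm hKg' hC0 hCz ⟨hS, hg, hv, hN⟩).trans hA2
  have hmain : bnorm S j main ≤ 3 / 4 * P.z0 := by
    exact main_bnorm hC0 hz0 ⟨hS, hg, hv, hN⟩
  refine (bnorm_comb (5 / 4) 15 15 15 (h₁ := main) (h₂ := p) (h₃ := q) (h₄ := r)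
    fun i _ l _ => ?_).trans ?_
  · have hchild : gram v (H.child k) i l - (if i = l then S.D (j + 1) i else 0)
        = main i l + p i l + q i l - r i l := by
      have h1 : gram v (H.child k) i l = ∑ x ∈ H.child k, φ i l x := rfl
      have h2 : ∑ x ∈ rest Kg S v j U, φ i l x = gram v U i l - gram v sg i l := by
        rw [rest, sum_sdiff_eq_sub singles_subset]; rfl
      rw [h1, child_sum, h2]
      simp only [main, p, q, r, e, τ, S.D_succ, ← hwdef, ← hFdef]
      split_ifs <;> ring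
    rw [hchild]
    nlinarith [sq_nonneg (main i l - 4 * (p i l + q i l - r i l)), sq_nonneg (p i l - q i l),
      sq_nonneg (p i l + r i l), sq_nonneg (q i l + r i l)]
  · rw [hz0] at hmain ⊢
    linarith

/-- The poor mass of a child after a wide step. -/
lemma child_poor_wide (hKg : 0 ≤ Kg) (hCb : 4 * (1 + 4 * Kg) ≤ P.Cb) (hyp : Hyp S v j U a b)
    (H : Data Kg S v j U a b) (k : ℕ) (hwide : S.wide j = true) :
    ∑ i ∈ S.Poor (j + 1), S.theta (j + 1) i * gram v (H.child k) i i ≤ S.Tb (j + 1) := by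
  obtain ⟨hS, hg, hv, hN⟩ := hyp
  set R := rest Kg S v j U
  have hcU : H.child k ⊆ U := (child_subset_rest H k).trans rest_subset
  have hW0 := hS.W_nonneg j
  have hwin : ∀ l, ∑ x ∈ win R H.f l, ∑ i ∈ S.New j, v x i * v x i ≤ (1 + 4 * Kg) * S.W j := by
    intro l
    rcases lt_or_ge l (2 ^ (S.wd j + 1)) with hl | hl
    swap
    · have : win R H.f l = ∅ := filter_false_of_mem fun x _ h => by
        have := H.f_lt x; omega
      rw [this, sum_empty]
      positivity
    rw [win_sum]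
    have hcd : ∀ m, m ≤ 2 ^ (S.wd j + 1) →
        |werr H (fun x => ∑ i ∈ S.New j, v x i * v x i) m| ≤ Kg * (2 * S.W j) := by
      intro m hm
      have h := (H.fresh m hm).crossDiag
      have e1 : ∑ i ∈ S.New j, quad v R (pcoef H.f m (2 ^ (S.wd j + 1))) i i
          = werr H (fun x => ∑ i ∈ S.New j, v x i * v x i) m := by
        simp only [quad, werr, mul_sum]
        exact sum_comm
      rw [e1] at h
      refine h.trans (mul_le_mul_of_nonneg_left ?_ hKg)
      linarith [hS.new_card j, hS.width_le j hwide]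
    have h1 := abs_le.1 (hcd (l + 1) hl)
    have h2 := abs_le.1 (hcd l hl.le)
    have h3 : (∑ x ∈ R, ∑ i ∈ S.New j, v x i * v x i) / 2 ^ (S.wd j + 1) ≤ S.W j := by
      rw [sum_comm, sum_div]
      refine le_trans (sum_le_sum fun i hi => ?_) (hS.new_mass j)
      calc (∑ x ∈ R, v x i * v x i) / 2 ^ (S.wd j + 1)
          ≤ (2 * S.D j i) / 2 ^ (S.wd j + 1) := by
            refine div_le_div_of_nonneg_right ?_ (by positivity)
            exact (gram_diag_mono v rest_subset i).trans (hN.diag_le i (mem_sdiff.1 hi).1)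
        _ = S.D (j + 1) i := by rw [S.D_succ, pow_succ]; ring
        _ ≤ _ := le_max_left _ _
    linarith [h1.2, h2.1]
  have hnew : ∑ i ∈ S.New j, gram v (H.child k) i i ≤ P.Cb * S.W j := by
    simp only [gram]
    rw [sum_comm]
    refine (child_le_windows H k (φ := fun x => ∑ i ∈ S.New j, v x i * v x i)
      fun x => sum_nonneg fun i _ => mul_self_nonneg _).trans ?_
    have := mul_le_mul_of_nonneg_right hCb hW0
    linarith [hwin (2 * k - 1), hwin (2 * k), hwin (2 * k + 1), hwin (2 * k + 2)]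
  rw [S.poor_succ, sum_union (S.disjoint_poor_new j), S.Tb_succ, if_pos hwide]
  refine add_le_add ?_ ?_
  · refine le_trans (sum_le_sum fun i hi => ?_) hN.poor_le
    rw [theta_succ_poor hi, if_pos hwide]
    exact mul_le_mul_of_nonneg_left (gram_diag_mono v hcU i) (S.theta_pos j i).le
  · refine le_trans (le_of_eq (sum_congr rfl fun i hi => ?_)) hnew
    simp [Sched.theta, S.age_new hi]

/-- The poor mass of a child after a binary step. -/
lemma child_poor_binary (hKg : 1 ≤ Kg) (hC0 : 40000 ≤ P.C0) (hCb0 : 0 ≤ P.Cb)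
    (hyp : Hyp S v j U a b) (H : Data Kg S v j U a b) {k : ℕ} (hk : k < 2 ^ S.wd j)
    (hbin : S.wide j = false) :
    ∑ i ∈ S.Poor (j + 1), S.theta (j + 1) i * gram v (H.child k) i i ≤ S.Tb (j + 1) := by
  obtain ⟨hS, hg, hv, hN⟩ := hyp
  set R := rest Kg S v j U with hR
  set T := S.Tb j
  have hT : 0 ≤ T := S.Tb_nonneg hS hCb0 j
  have hwd : S.wd j = 1 := S.wd_binary hbin
  set ψ : Fin n → ℝ := pshare S v j with hψ
  have hψ0 : ∀ x, 0 ≤ ψ x := pshare_nonneg
  have hPT : ∑ x ∈ R, ψ x ≤ T := by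
    refine (sum_le_sum_of_subset_of_nonneg rest_subset fun x _ _ => hψ0 x).trans ?_
    rw [hψ, sum_pshare]; exact hN.poor_le
  have hP0 : 0 ≤ ∑ x ∈ R, ψ x := sum_nonneg fun x _ => hψ0 x
  have hsmall : ∀ x ∈ R, ψ x ≤ eta Kg * T := by
    intro x hx
    obtain ⟨hxU, hxs⟩ := mem_sdiff.1 hx
    unfold singles at hxs
    rw [if_neg (by simp [hbin]), mem_filter] at hxs
    exact le_of_not_gt fun h => hxs ⟨hxU, h⟩
  have hfresh : ∀ (W : Finset (Fin n)) (c : Fin n → ℝ), W ⊆ R → Fresh Kg 1 S v j W c →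
      |∑ x ∈ W, c x * ψ x| ≤ T / 300 := by
    intro W c hW h
    have h := h.poorDiag
    rw [quad_pshare] at h
    refine h.trans ?_
    have he : 0 ≤ eta Kg := by unfold eta; positivity
    have h2 : ∑ x ∈ W, ψ x ^ 2 ≤ eta Kg * T ^ 2 := by
      calc ∑ x ∈ W, ψ x ^ 2 ≤ ∑ x ∈ R, ψ x ^ 2 :=
            sum_le_sum_of_subset_of_nonneg hW fun x _ _ => sq_nonneg _
        _ ≤ ∑ x ∈ R, eta Kg * T * ψ x := sum_le_sum fun x hx => by
            rw [sq]; exact mul_le_mul_of_nonneg_right (hsmall x hx) (hψ0 x)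
        _ ≤ eta Kg * T * T := by
            rw [← mul_sum]; exact mul_le_mul_of_nonneg_left hPT (mul_nonneg he hT)
        _ = _ := by ring
    calc Kg * Real.sqrt ((1 : ℕ) * ∑ x ∈ W, (∑ i ∈ S.Poor j, S.theta j i * v x i ^ 2) ^ 2)
        ≤ Kg * Real.sqrt (eta Kg * T ^ 2) := by
          refine mul_le_mul_of_nonneg_left (Real.sqrt_le_sqrt ?_) (by linarith)
          rw [Nat.cast_one, one_mul]; exact h2
      _ = T / 300 := by
          rw [show eta Kg * T ^ 2 = (T / (300 * Kg)) ^ 2 by unfold eta; ring,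
            Real.sqrt_sq (by positivity)]
          field_simp
  have he : ∀ m, m ≤ 4 → |werr H ψ m| ≤ T / 300 := by
    intro m hm
    have hf := H.fresh m (by rw [hwd]; simpa using hm)
    have hf' : Fresh Kg 1 S v j R (pcoef H.f m (2 ^ (S.wd j + 1))) := by
      convert hf using 2; exact hwd.symm
    exact hfresh R _ Subset.rfl hf'
  set Bd := H.bdry 1 one_pos (by rw [hwd]; norm_num)
  have hpair : pair R H.f 1 ⊆ R := filter_subset _ _
  have hC := hfresh _ _ hpair Bd.fresh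
  have hX : |∑ x ∈ pair R H.f 1, Bd.shift x * ψ x| ≤ T / 100 := by
    have hs : ∀ x ∈ pair R H.f 1, |Bd.shift x| ≤ 1 / 100 := fun x hx => by
      refine (Bd.shift_le x hx).trans ?_
      rw [hwd]
      have hc : cost S v j R H.f 1 a b ≤ 1 := by
        have := Bd.cost_le
        rw [hwd, Nat.cast_one, Real.one_rpow] at this
        exact this
      have hκ : (40000 : ℝ) ≤ kappa P.C0 1 :=
        hC0.trans (kappa_lower (by linarith) le_rfl).1
      calc 2 * Real.sqrt (cost S v j R H.f 1 a b / kappa P.C0 1)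
          ≤ 2 * Real.sqrt (1 / 40000) := by
            refine mul_le_mul_of_nonneg_left (Real.sqrt_le_sqrt ?_) (by norm_num)
            exact div_le_div₀ zero_le_one hc (by norm_num) hκ
        _ = 1 / 100 := by
            rw [show (1 : ℝ) / 40000 = (1 / 200) ^ 2 by norm_num, Real.sqrt_sq (by norm_num)]
            norm_num
    calc |∑ x ∈ pair R H.f 1, Bd.shift x * ψ x| ≤ ∑ x ∈ pair R H.f 1, 1 / 100 * ψ x := by
          refine (abs_sum_le_sum_abs _ _).trans (sum_le_sum fun x hx => ?_)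
          rw [abs_mul, abs_of_nonneg (hψ0 x)]
          exact mul_le_mul_of_nonneg_right (hs x hx) (hψ0 x)
      _ ≤ T / 100 := by
          rw [← mul_sum]
          have := (sum_le_sum_of_subset_of_nonneg hpair fun x _ _ => hψ0 x).trans hPT
          linarith
  have hb1 : berr H ψ 1 = (∑ x ∈ pair R H.f 1, side H.f 1 x * ((if x ∈ Bd.M then 1 else 0)
        - (1 / 4 + side H.f 1 x * Bd.shift x)) * ψ x)
      + 1 / 4 * (werr H ψ 3 - 2 * werr H ψ 2 + werr H ψ 1)
      + ∑ x ∈ pair R H.f 1, Bd.shift x * ψ x := by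
    unfold berr
    rw [dif_pos (show 0 < 1 ∧ 1 < 2 ^ S.wd j by rw [hwd]; norm_num)]
  have hb0 : berr H ψ 0 = 0 := dif_neg (by omega)
  have hb2 : berr H ψ 2 = 0 := dif_neg (by rw [hwd]; omega)
  have hsum : ∑ x ∈ H.child k, ψ x ≤ 53 / 100 * T := by
    have hk' : k = 0 ∨ k = 1 := by rw [hwd] at hk; omega
    have hc := child_sum H ψ k
    rw [hwd, pow_one] at hc
    have e0 := abs_le.1 (he 0 (by norm_num)); have e1 := abs_le.1 (he 1 (by norm_num))
    have e2 := abs_le.1 (he 2 (by norm_num)); have e3 := abs_le.1 (he 3 (by norm_num))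
    have e4 := abs_le.1 (he 4 (by norm_num))
    have eC := abs_le.1 hC; have eX := abs_le.1 hX
    rcases hk' with rfl | rfl <;> norm_num [hb0, hb2, hb1] at hc <;> linarith
  have hnew : S.New j = ∅ := hS.new_binary j hbin
  rw [S.poor_succ, hnew, union_empty, S.Tb_succ, if_neg (by simp [hbin])]
  calc ∑ i ∈ S.Poor j, S.theta (j + 1) i * gram v (H.child k) i i
      = Real.sqrt 2 * ∑ x ∈ H.child k, ψ x := by
        rw [hψ, sum_pshare, mul_sum]
        refine sum_congr rfl fun i hi => ?_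
        rw [theta_succ_poor hi, if_neg (by simp [hbin])]; ring
    _ ≤ 1.415 * (53 / 100 * T) := by
        refine mul_le_mul ?_ hsum (sum_nonneg fun x _ => hψ0 x) (by norm_num)
        rw [Real.sqrt_le_left (by norm_num)]; norm_num
    _ ≤ 3 / 4 * T := by linarith

/-- The counting bounds for `ℕ` apply to coordinates. -/
lemma transport_fin {d : ℕ} (B : Finset (Fin d)) (D : Fin d → ℝ) :
    ∃ (B' : Finset ℕ) (D' : ℕ → ℝ), (∀ κ, (∀ i ∈ B, κ ≤ D i) → ∀ i ∈ B', κ ≤ D' i) ∧
      (∀ x, (B'.filter fun i => D' i ≤ x).card = (B.filter fun i => D i ≤ x).card) ∧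
      ∀ G : ℝ → ℝ, ∑ i ∈ B', G (D' i) = ∑ i ∈ B, G (D i) := by
  set D' : ℕ → ℝ := fun i => if h : i < d then D ⟨i, h⟩ else 0
  have hD' : ∀ i : Fin d, D' (Fin.valEmbedding i) = D i := fun i => dif_pos i.2
  refine ⟨B.map Fin.valEmbedding, D', fun κ h i hi => ?_, fun x => ?_, fun G => ?_⟩
  · obtain ⟨i', hi', rfl⟩ := mem_map.1 hi
    rw [hD']; exact h i' hi'
  · rw [filter_map, card_map]
    exact congrArg card (filter_congr fun i _ => by simp only [Function.comp, hD'])
  · rw [sum_map]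
    exact sum_congr rfl fun i _ => by rw [hD']

/-- **M4.** -/
theorem childProp {Kg : ℝ} (hKg : 1 ≤ Kg) : ChildProp Kg := by
  refine ⟨0, fun K _ _ => ?_⟩
  obtain ⟨Cz, hCz0, hCz⟩ := zWeight_sum (ι := ℕ)
  obtain ⟨Cq, hCq0, hCq⟩ := count_rpow (ι := ℕ) (show (1 : ℝ) / 16 < 1 / 4 by norm_num)
  have he0 : 0 < eta Kg := by unfold eta; positivity
  set M := Kg * Cz + (1 / eta Kg) ^ 2 * Cz + 6 * Cq ^ 2 + 1 with hM
  have hM1 : 1 ≤ M := by
    rw [hM]; nlinarith [mul_pos (show (0 : ℝ) < Kg by linarith) hCz0, sq_nonneg (1 / eta Kg),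
      sq_nonneg Cq, mul_nonneg (sq_nonneg (1 / eta Kg)) hCz0.le]
  refine ⟨1 / (2000000 * M), by positivity, fun ε hε hεe => ?_⟩
  refine ⟨max 40000 (4000000 * Kg), fun C0 hC _ => ⟨4 * (1 + 4 * Kg), fun Cb hCb _ => ?_⟩⟩
  intro n d g S v j U a b hyp H k hk
  have hε1 : ε ≤ 1 := hεe.trans (by rw [div_le_one (by positivity)]; linarith)
  have hMε : M * ε ^ 2 ≤ 1 / 2000000 := by
    rw [le_div_iff₀ (by positivity)] at hεe
    nlinarith [mul_le_mul_of_nonneg_left hε1 (mul_nonneg (zero_le_one.trans hM1) hε.le)]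
  have hC1 : 40000 ≤ C0 := le_of_max_le_left hC
  have hC2 : 4000000 * Kg ≤ C0 := le_of_max_le_right hC
  have hK2 : Kg * (2 / C0) ≤ 1 / 2000000 := by
    rw [mul_div_assoc', div_le_iff₀ (by linarith)]; linarith
  have hp1 : 0 ≤ Kg * Cz * ε ^ 2 := by positivity
  have hp2 : 0 ≤ (1 / eta Kg) ^ 2 * Cz * ε ^ 2 := by positivity
  have hp3 : 0 ≤ 6 * Cq ^ 2 * ε ^ 2 := by positivity
  have hexp : M * ε ^ 2
      = Kg * Cz * ε ^ 2 + (1 / eta Kg) ^ 2 * Cz * ε ^ 2 + 6 * Cq ^ 2 * ε ^ 2 + ε ^ 2 := by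
    rw [hM]; ring
  -- transport the counting lemmas to `Fin d`
  have hb : bnorm S j (fun i l => gram v (H.child k) i l - if i = l then S.D (j + 1) i else 0)
      ≤ 1 / 16 := by
    refine child_balance (Cz := Cz) (Cq := Cq) (A := 1 / 1000000) (by linarith) (by linarith : (1 : ℝ) ≤ C0)
      rfl ?_ ?_ le_rfl ?_ ?_ ?_ (by linarith) hyp H hk
    · intro B D ε' κ hκ hD hB
      obtain ⟨B', D', h1, h2, h3⟩ := transport_fin B D
      have := hCz B' D' ε' κ hκ (h1 κ hD) (fun x hx => by rw [h2]; exact hB x hx)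
      rw [h3 (fun t => ∑ k ∈ B', zWeight t (D' k))] at this
      refine le_trans (le_of_eq (sum_congr rfl fun i _ => ?_)) this
      exact (h3 (zWeight (D i))).symm
    · intro B D ε' κ hκ hD hB
      obtain ⟨B', D', h1, h2, h3⟩ := transport_fin B D
      have := hCq B' D' ε' κ hκ (h1 κ hD) (fun x hx => by rw [h2]; exact hB x hx)
      rwa [h3 (fun t => t ^ (-(1 / 4) : ℝ))] at this
    · show Kg * (Cz * ε ^ 2 + 2 / C0) ≤ _
      rw [mul_add]; nlinarith [sq_nonneg ε]
    · show (1 / eta Kg) ^ 2 * (Cz * ε ^ 2) ≤ _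
      nlinarith [sq_nonneg ε]
    · show 6 * (Cq * ε) ^ 2 ≤ _
      nlinarith [sq_nonneg ε]
  refine ⟨hb, fun i hi => ?_, ?_⟩
  · have hD1 : 1 ≤ S.D (j + 1) i :=
      ((by linarith : (1 : ℝ) ≤ C0).trans (kappa_lower (by linarith) (S.wd_pos j)).1).trans
        (S.kappa_le hi)
    set G := gram v (H.child k) i i - S.D (j + 1) i with hG
    have h1 : zWeight (S.D (j + 1) i) (S.D (j + 1) i) * G ^ 2 ≤ 1 / 16 := by
      refine le_trans ?_ hb
      have h2 := single_le_sum (f := fun i => ∑ l ∈ S.Bal (j + 1),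
          zWeight (S.D (j + 1) i) (S.D (j + 1) l) *
            (gram v (H.child k) i l - if i = l then S.D (j + 1) i else 0) ^ 2)
        (fun i _ => sum_nonneg fun l _ => mul_nonneg (zWeight_nonneg _ _) (sq_nonneg _)) hi
      refine le_trans ?_ h2
      have h3 := single_le_sum (f := fun l =>
          zWeight (S.D (j + 1) i) (S.D (j + 1) l) *
            (gram v (H.child k) i l - if i = l then S.D (j + 1) i else 0) ^ 2)
        (fun l _ => mul_nonneg (zWeight_nonneg _ _) (sq_nonneg _)) hi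
      simpa [hG] using h3
    rw [zWeight_self hD1, inv_mul_le_iff₀ (by positivity)] at h1
    set D := S.D (j + 1) i
    have hs : Real.sqrt D ≤ D := by
      rw [Real.sqrt_le_left (by linarith)]; nlinarith
    have hG2 : G ^ 2 ≤ D ^ 2 := by nlinarith
    have := abs_le.1 (abs_le_of_sq_le_sq hG2 (by linarith))
    linarith
  · by_cases hw : S.wide j = true
    · exact child_poor_wide (by linarith) hCb hyp H k hw
    · exact child_poor_binary hKg hC1 (by show (0 : ℝ) ≤ Cb; linarith) hyp H hk (by simpa using hw)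

end Step

end Vale.Agent.P262
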