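import Vale.Agent.P262.Defs

/-!
# P262: the data of one step

Notation shared by the modules of the one-step theorem, and elementary facts about it.
-/

open scoped BigOperators

namespace Vale.Agent.P262

variable {n d : ℕ} {P : Consts} {g : Fin d → ℝ}

/-! ## Schedules -/

namespace Sched

variable (S : Sched P g)

lemma wd_pos (j : ℕ) : 0 < S.wd j := Nat.sub_pos_of_lt (S.lev_mono (Nat.lt_add_one j))

lemma wd_binary {j : ℕ} (h : S.wide j = false) : S.wd j = 1 := by
  have h1 := S.wd_pos j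
  have h2 : ¬ 1 < S.lev (j + 1) - S.lev j := fun h' => by simp [(S.wide_iff j).2 h'] at h
  rw [Sched.wd] at h1 ⊢
  omega

lemma D_succ (j : ℕ) (i : Fin d) : S.D (j + 1) i = S.D j i / 2 ^ S.wd j := by
  have h : S.lev (j + 1) = S.lev j + S.wd j := by
    have := (S.lev_mono (Nat.lt_add_one j)).le
    rw [Sched.wd]; omega
  simp only [Sched.D, lvlVal, h, pow_add, div_div]

lemma Bal_succ (j : ℕ) :
    S.Bal (j + 1) = (S.Bal j).filter (fun i => kappa P.C0 (S.wd j) ≤ S.D (j + 1) i) := rfl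

lemma Bal_succ_subset (j : ℕ) : S.Bal (j + 1) ⊆ S.Bal j := Finset.filter_subset _ _

lemma kappa_le {j : ℕ} {i : Fin d} (h : i ∈ S.Bal (j + 1)) :
    kappa P.C0 (S.wd j) ≤ S.D (j + 1) i := (Finset.mem_filter.1 h).2

lemma lt_kappa {j : ℕ} {i : Fin d} (h : i ∈ S.New j) :
    S.D (j + 1) i < kappa P.C0 (S.wd j) := by
  rcases Finset.mem_sdiff.1 h with ⟨h1, h2⟩
  exact lt_of_not_ge fun h' => h2 (Finset.mem_filter.2 ⟨h1, h'⟩)

/-- A coordinate that becomes poor lies below every coordinate that stays balanced. -/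
lemma new_lt_bal {j : ℕ} {i k : Fin d} (hi : i ∈ S.New j) (hk : k ∈ S.Bal (j + 1)) :
    g i < g k := by
  have h := (S.lt_kappa hi).trans_le (S.kappa_le hk)
  simp only [Sched.D, lvlVal] at h
  exact (div_lt_div_iff_of_pos_right (by positivity)).1 h

lemma poor_succ (j : ℕ) : S.Poor (j + 1) = S.Poor j ∪ S.New j := by
  ext i
  have := @Sched.Bal_succ_subset d P g S j i
  simp only [Sched.Poor, Sched.New, Finset.mem_sdiff, Finset.mem_univ, true_and,
    Finset.mem_union]
  tauto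

lemma disjoint_poor_new (j : ℕ) : Disjoint (S.Poor j) (S.New j) :=
  Finset.disjoint_left.2 fun _ h1 h2 => (Finset.mem_sdiff.1 h1).2 (Finset.mem_sdiff.1 h2).1

lemma age_eq_zero : ∀ (j : ℕ) (i : Fin d), i ∈ S.Bal j → S.age j i = 0
  | 0, _, _ => rfl
  | j + 1, i, h => by
    have h' := S.Bal_succ_subset j h
    simp [Sched.age, h', age_eq_zero j i h']

lemma age_new {j : ℕ} {i : Fin d} (h : i ∈ S.New j) : S.age (j + 1) i = 0 := by
  have h' := (Finset.mem_sdiff.1 h).1
  simp [Sched.age, h', S.age_eq_zero j i h']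

lemma one_le_theta (j : ℕ) (i : Fin d) : 1 ≤ S.theta j i :=
  one_le_pow₀ (Real.one_le_sqrt.2 one_le_two)

lemma theta_pos (j : ℕ) (i : Fin d) : 0 < S.theta j i :=
  one_pos.trans_le (S.one_le_theta j i)

lemma two_le_beta (j : ℕ) (i : Fin d) : 2 ≤ S.beta j i := by
  have h1 : 0 ≤ ∑ a ∈ Finset.range (S.age j i), (Real.sqrt 2 ^ a)⁻¹ :=
    Finset.sum_nonneg fun a _ => by positivity
  have h2 : 0 ≤ (S.theta j i)⁻¹ := inv_nonneg.2 (S.theta_pos j i).le
  unfold Sched.beta
  split_ifs <;> linarith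

lemma Bud_succ (j : ℕ) : S.Bud (j + 1) = S.Bud j +
    P.Cb * (S.W j + (if S.wide j then (S.wd j : ℝ) + 1 else 1) * S.Tb j) := rfl

lemma Tb_succ (j : ℕ) :
    S.Tb (j + 1) = if S.wide j then S.Tb j + P.Cb * S.W j else 3 / 4 * S.Tb j := rfl

lemma Tb_nonneg (hS : S.Valid) (hCb : 0 ≤ P.Cb) : ∀ j, 0 ≤ S.Tb j
  | 0 => le_rfl
  | j + 1 => by
    have h1 := Tb_nonneg hS hCb j
    have h2 := mul_nonneg hCb (hS.W_nonneg j)
    rw [S.Tb_succ]
    split_ifs <;> linarith

lemma Bud_nonneg (hS : S.Valid) (hCb : 0 ≤ P.Cb) : ∀ j, 0 ≤ S.Bud j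
  | 0 => le_rfl
  | j + 1 => by
    have h1 := Bud_nonneg hS hCb j
    have h2 := hS.W_nonneg j
    have h3 := S.Tb_nonneg hS hCb j
    rw [S.Bud_succ]
    split_ifs <;> positivity

end Sched

/-! ## Thresholds for the constants -/

/-- `Φ` holds once `K` is large, then `ε` small, then `C0` large, then `Cb` large. -/
def Suitable (Φ : Consts → Prop) : Prop :=
  ∃ K₁ : ℝ, ∀ K, K₁ ≤ K → 1 ≤ K → ∃ e : ℝ, 0 < e ∧ ∀ ε, 0 < ε → ε ≤ e →
    ∃ c : ℝ, ∀ C0, c ≤ C0 → 1 ≤ C0 → ∃ cb : ℝ, ∀ Cb, cb ≤ Cb → 1 ≤ Cb →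
      Φ ⟨K, C0, ε, 1 / 16, Cb⟩

lemma Suitable.and {Φ Ψ : Consts → Prop} (h : Suitable Φ) (h' : Suitable Ψ) :
    Suitable fun P => Φ P ∧ Ψ P := by
  obtain ⟨K₁, h⟩ := h
  obtain ⟨K₂, h'⟩ := h'
  refine ⟨max K₁ K₂, fun K hK hK1 => ?_⟩
  obtain ⟨e, he, h⟩ := h K (le_of_max_le_left hK) hK1
  obtain ⟨e', he', h'⟩ := h' K (le_of_max_le_right hK) hK1
  refine ⟨min e e', lt_min he he', fun ε hε hε' => ?_⟩
  obtain ⟨c, h⟩ := h ε hε (hε'.trans (min_le_left _ _))
  obtain ⟨c', h'⟩ := h' ε hε (hε'.trans (min_le_right _ _))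
  refine ⟨max c c', fun C0 hC hC1 => ?_⟩
  obtain ⟨cb, h⟩ := h C0 (le_of_max_le_left hC) hC1
  obtain ⟨cb', h'⟩ := h' C0 (le_of_max_le_right hC) hC1
  exact ⟨max cb cb', fun Cb hb hb1 =>
    ⟨h Cb (le_of_max_le_left hb) hb1, h' Cb (le_of_max_le_right hb) hb1⟩⟩

namespace Step

/-! ## Weights and sets -/

/-- The share of an item in the poor mass. -/
noncomputable def pshare (S : Sched P g) (v : Fin n → Fin d → ℝ) (j : ℕ) (x : Fin n) : ℝ :=
  ∑ i ∈ S.Poor j, S.theta j i * v x i ^ 2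

/-- The threshold for single items. -/
noncomputable def eta (Kg : ℝ) : ℝ := 1 / (90000 * Kg ^ 2)

/-- The items taken out before a binary step. -/
noncomputable def singles (Kg : ℝ) (S : Sched P g) (v : Fin n → Fin d → ℝ) (j : ℕ)
    (U : Finset (Fin n)) : Finset (Fin n) :=
  if S.wide j then ∅ else U.filter (fun x => eta Kg * S.Tb j < pshare S v j x)

/-- The items that are split. -/
noncomputable def rest (Kg : ℝ) (S : Sched P g) (v : Fin n → Fin d → ℝ) (j : ℕ)
    (U : Finset (Fin n)) : Finset (Fin n) :=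
  U \ singles Kg S v j U

/-- The weights of the balance error of a child. -/
noncomputable def omega (S : Sched P g) (j : ℕ) (i k : Fin d) : ℝ :=
  if i ∈ S.Bal (j + 1) ∧ k ∈ S.Bal (j + 1) then zWeight (S.D (j + 1) i) (S.D (j + 1) k) else 0

/-- The weights of the entries between new and balanced coordinates. -/
noncomputable def omega' (S : Sched P g) (j : ℕ) (i k : Fin d) : ℝ :=
  if i ∈ S.New j ∧ k ∈ S.Bal (j + 1) then (Real.sqrt (S.D (j + 1) k))⁻¹ else 0

/-- All fresh bounds of one rounding in step `j`. -/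
def Fresh (Kg : ℝ) (w : ℕ) (S : Sched P g) (v : Fin n → Fin d → ℝ) (j : ℕ) (A : Finset (Fin n))
    (c : Fin n → ℝ) : Prop :=
  FreshBound Kg w v A g (S.Bal (j + 1)) (S.New j) (S.Poor j) (S.theta j) (omega S j)
    (omega' S j) (2 * (kappa P.C0 (S.wd j) * Real.sqrt (kappa P.C0 (S.wd j)))⁻¹)
    (Real.sqrt (kappa P.C0 (S.wd j)))⁻¹ c

/-- The coefficients of the error of the first `k` of `m` windows. -/
noncomputable def pcoef (f : Fin n → ℕ) (k m : ℕ) (x : Fin n) : ℝ :=
  (if f x < k then 1 else 0) - (k : ℝ) / m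

/-- One window. -/
def win (R : Finset (Fin n)) (f : Fin n → ℕ) (k : ℕ) : Finset (Fin n) :=
  R.filter (fun x => f x = k)

/-- The two windows next to the `k`-th boundary. -/
def pair (R : Finset (Fin n)) (f : Fin n → ℕ) (k : ℕ) : Finset (Fin n) :=
  R.filter (fun x => f x + 1 = 2 * k ∨ f x = 2 * k)

/-- The interpolation of the endpoints. -/
noncomputable def interp (w k : ℕ) (a b : Fin d → ℝ) (i : Fin d) : ℝ :=
  (1 - (k : ℝ) / 2 ^ w) * a i + (k : ℝ) / 2 ^ w * b i

/-- The boundary before transfers. -/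
def pre (R : Finset (Fin n)) (v : Fin n → Fin d → ℝ) (f : Fin n → ℕ) (k : ℕ) (a : Fin d → ℝ)
    (i : Fin d) : ℝ :=
  a i + vsum v (R.filter (fun x => f x < 2 * k)) i

/-- Right window minus left window. -/
def delta (R : Finset (Fin n)) (v : Fin n → Fin d → ℝ) (f : Fin n → ℕ) (k : ℕ) (i : Fin d) :
    ℝ :=
  vsum v (win R f (2 * k)) i - vsum v (win R f (2 * k - 1)) i

/-- Clipping at the fourth root of the predicted diagonal. -/
noncomputable def clip (D x : ℝ) : ℝ :=
  max (-Real.sqrt (Real.sqrt D)) (min (Real.sqrt (Real.sqrt D)) x)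

/-- The value that transfers remove at the `k`-th boundary. -/
noncomputable def target (S : Sched P g) (v : Fin n → Fin d → ℝ) (j : ℕ) (R : Finset (Fin n))
    (f : Fin n → ℕ) (k : ℕ) (a b : Fin d → ℝ) (i : Fin d) : ℝ :=
  clip (S.D (j + 1) i) (interp (S.wd j) k a b i) +
    (pre R v f k a i - interp (S.wd j) k a b i) + delta R v f k i / 4

/-- The weighted size of the target. -/
noncomputable def cost (S : Sched P g) (v : Fin n → Fin d → ℝ) (j : ℕ) (R : Finset (Fin n))
    (f : Fin n → ℕ) (k : ℕ) (a b : Fin d → ℝ) : ℝ :=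
  ∑ i ∈ S.Bal (j + 1), target S v j R f k a b i ^ 2 / S.D (j + 1) i

/-- The side of an item at the `k`-th boundary. -/
def side (f : Fin n → ℕ) (k : ℕ) (x : Fin n) : ℝ := if f x = 2 * k then 1 else -1

/-- The transfers at one boundary. -/
structure Bdry (Kg : ℝ) (S : Sched P g) (v : Fin n → Fin d → ℝ) (j : ℕ) (R : Finset (Fin n))
    (f : Fin n → ℕ) (k : ℕ) (a b : Fin d → ℝ) where
  z : Fin d → ℝ
  shift : Fin n → ℝ
  M : Finset (Fin n)
  shift_eq : ∀ x, shift x = ∑ i ∈ S.Bal (j + 1), z i * v x i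
  solve : ∀ i ∈ S.Bal (j + 1), lin v (pair R f k) shift i = -target S v j R f k a b i
  cost_le : cost S v j R f k a b ≤ (S.wd j : ℝ) ^ (1 / 8 : ℝ)
  energy : ∑ i ∈ S.Bal (j + 1), S.D (j + 1) i * z i ^ 2 ≤ 4 * cost S v j R f k a b
  shift_sq : ∑ x ∈ pair R f k, shift x ^ 2 ≤ 2 * cost S v j R f k a b
  shift_le : ∀ x ∈ pair R f k,
    |shift x| ≤ 2 * Real.sqrt (cost S v j R f k a b / kappa P.C0 (S.wd j))
  pair_diag : ∀ i ∈ S.Bal (j + 1), gram v (pair R f k) i i ≤ 3 * S.D (j + 1) i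
  M_subset : M ⊆ pair R f k
  fresh : Fresh Kg 1 S v j (pair R f k)
    (fun x => side f k x * ((if x ∈ M then 1 else 0) - (1 / 4 + side f k x * shift x)))

/-- The windows and the transfers of one step. -/
structure Data (Kg : ℝ) (S : Sched P g) (v : Fin n → Fin d → ℝ) (j : ℕ) (U : Finset (Fin n))
    (a b : Fin d → ℝ) where
  f : Fin n → ℕ
  f_lt : ∀ x, f x < 2 ^ (S.wd j + 1)
  fresh : ∀ k ≤ 2 ^ (S.wd j + 1), Fresh Kg (S.wd j) S v j (rest Kg S v j U)
    (pcoef f k (2 ^ (S.wd j + 1)))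
  bdry : ∀ k : ℕ, 0 < k → k < 2 ^ S.wd j → Bdry Kg S v j (rest Kg S v j U) f k a b

variable {Kg : ℝ} {S : Sched P g} {v : Fin n → Fin d → ℝ} {j : ℕ} {U : Finset (Fin n)}
  {a b : Fin d → ℝ}

/-- The items moved at the `k`-th boundary. -/
def Data.moved (H : Data Kg S v j U a b) (k : ℕ) : Finset (Fin n) :=
  if h : 0 < k ∧ k < 2 ^ S.wd j then (H.bdry k h.1 h.2).M else ∅

/-- The child that receives an item. -/
def Data.dest (H : Data Kg S v j U a b) (x : Fin n) : ℕ :=
  if H.f x % 2 = 0 then (if x ∈ H.moved (H.f x / 2) then H.f x / 2 - 1 else H.f x / 2)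
  else if x ∈ H.moved (H.f x / 2 + 1) then H.f x / 2 + 1 else H.f x / 2

/-- A child. -/
noncomputable def Data.child (H : Data Kg S v j U a b) (k : ℕ) : Finset (Fin n) :=
  (rest Kg S v j U).filter (fun x => H.dest x = k)

/-- A boundary between children. -/
noncomputable def Data.point (H : Data Kg S v j U a b) (k : ℕ) (i : Fin d) : ℝ :=
  a i + vsum v ((rest Kg S v j U).filter (fun x => H.dest x < k)) i

/-- The endpoint invariant of the next step. -/
def PotOK (S : Sched P g) (j : ℕ) (p : Fin d → ℝ) : Prop :=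
  ∀ τ : ℝ, (∑ i ∈ S.Poor (j + 1), p i ^ 2 / S.beta (j + 1) i) +
    (∑ i ∈ (S.Bal (j + 1)).filter (fun i => g i ≤ τ), p i ^ 2) ≤
    S.Bud (j + 1) + P.K * ((S.Bal (j + 1)).filter (fun i => g i ≤ τ)).card

/-- The interior invariants of the next step. -/
def ChildOK (S : Sched P g) (v : Fin n → Fin d → ℝ) (j : ℕ) (V : Finset (Fin n)) : Prop :=
  (∑ i ∈ S.Bal (j + 1), ∑ k ∈ S.Bal (j + 1), zWeight (S.D (j + 1) i) (S.D (j + 1) k) *
      (gram v V i k - if i = k then S.D (j + 1) i else 0) ^ 2 ≤ P.z0) ∧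
  (∀ i ∈ S.Bal (j + 1), gram v V i i ≤ 2 * S.D (j + 1) i) ∧
  (∑ i ∈ S.Poor (j + 1), S.theta (j + 1) i * gram v V i i ≤ S.Tb (j + 1))

/-- The hypotheses of one step. -/
structure Hyp (S : Sched P g) (v : Fin n → Fin d → ℝ) (j : ℕ) (U : Finset (Fin n))
    (a b : Fin d → ℝ) : Prop where
  valid : S.Valid
  g_nonneg : ∀ i, 0 ≤ g i
  norm_le : ∀ x, ∑ i, v x i ^ 2 ≤ 1
  node : NodeInv S v j U a b

/-! ## The three facts that make up a step -/

/-- Windows and transfers exist. -/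
def DataProp (Kg : ℝ) : Prop := Suitable fun P =>
  ∀ (n d : ℕ) (g : Fin d → ℝ) (S : Sched P g) (v : Fin n → Fin d → ℝ) (j : ℕ)
    (U : Finset (Fin n)) (a b : Fin d → ℝ), Hyp S v j U a b → Nonempty (Data Kg S v j U a b)

/-- Children satisfy the interior invariants. -/
def ChildProp (Kg : ℝ) : Prop := Suitable fun P =>
  ∀ (n d : ℕ) (g : Fin d → ℝ) (S : Sched P g) (v : Fin n → Fin d → ℝ) (j : ℕ)
    (U : Finset (Fin n)) (a b : Fin d → ℝ), Hyp S v j U a b →
    ∀ (H : Data Kg S v j U a b) (k : ℕ), k < 2 ^ S.wd j → ChildOK S v j (H.child k)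

/-- Old and new endpoints satisfy the endpoint invariant. -/
def PotProp (Kg : ℝ) : Prop := Suitable fun P =>
  ∀ (n d : ℕ) (g : Fin d → ℝ) (S : Sched P g) (v : Fin n → Fin d → ℝ) (j : ℕ)
    (U : Finset (Fin n)) (a b : Fin d → ℝ), Hyp S v j U a b →
    PotOK S j a ∧ PotOK S j b ∧
    ∀ (H : Data Kg S v j U a b) (k : ℕ), 0 < k → k < 2 ^ S.wd j →
      PotOK S j (H.point k) ∧
      PotOK S j (fun i => H.point k i + vsum v (singles Kg S v j U) i)

/-! ## Elementary identities -/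

lemma lin_sub_const (A : Finset (Fin n)) (c : Fin n → ℝ) (t : ℝ) (i : Fin d) :
    lin v A (fun x => c x - t) i = lin v A c i - t * vsum v A i := by
  simp [lin, vsum, sub_mul, Finset.sum_sub_distrib, Finset.mul_sum]

lemma lin_ite (A : Finset (Fin n)) (p : Fin n → Prop) [DecidablePred p] (i : Fin d) :
    lin v A (fun x => if p x then 1 else 0) i = vsum v (A.filter p) i := by
  simp [lin, vsum, Finset.sum_filter]

lemma lin_pcoef (A : Finset (Fin n)) (f : Fin n → ℕ) (k m : ℕ) (i : Fin d) :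
    lin v A (pcoef f k m) i = vsum v (A.filter (fun x => f x < k)) i - (k : ℝ) / m * vsum v A i := by
  unfold pcoef
  rw [lin_sub_const, lin_ite]

lemma quad_pcoef (A : Finset (Fin n)) (f : Fin n → ℕ) (k m : ℕ) (i l : Fin d) :
    quad v A (pcoef f k m) i l =
      gram v (A.filter (fun x => f x < k)) i l - (k : ℝ) / m * gram v A i l := by
  simp [quad, gram, pcoef, sub_mul, Finset.sum_sub_distrib, Finset.mul_sum, Finset.sum_filter]

lemma vsum_filter_lt_succ (A : Finset (Fin n)) (f : Fin n → ℕ) (k : ℕ) (i : Fin d) :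
    vsum v (A.filter (fun x => f x < k + 1)) i =
      vsum v (A.filter (fun x => f x < k)) i + vsum v (win A f k) i := by
  simp only [vsum, win, Finset.sum_filter, ← Finset.sum_add_distrib]
  refine Finset.sum_congr rfl fun x _ => ?_
  rcases lt_trichotomy (f x) k with h | h | h
  · simp [h, h.ne, h.trans k.lt_succ_self]
  · simp [h]
  · simp [h.not_gt, h.ne', show ¬ f x < k + 1 by omega]

lemma gram_filter_lt_succ (A : Finset (Fin n)) (f : Fin n → ℕ) (k : ℕ) (i l : Fin d) :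
    gram v (A.filter (fun x => f x < k + 1)) i l =
      gram v (A.filter (fun x => f x < k)) i l + gram v (win A f k) i l := by
  simp only [gram, win, Finset.sum_filter, ← Finset.sum_add_distrib]
  refine Finset.sum_congr rfl fun x _ => ?_
  rcases lt_trichotomy (f x) k with h | h | h
  · simp [h, h.ne, h.trans k.lt_succ_self]
  · simp [h]
  · simp [h.not_gt, h.ne', show ¬ f x < k + 1 by omega]

lemma rest_subset : rest Kg S v j U ⊆ U := Finset.sdiff_subset

lemma singles_subset : singles Kg S v j U ⊆ U := by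
  unfold singles
  split_ifs <;> simp

lemma singles_wide (h : S.wide j = true) : singles Kg S v j U = ∅ := if_pos h

lemma vsum_rest (i : Fin d) :
    vsum v (rest Kg S v j U) i = vsum v U i - vsum v (singles Kg S v j U) i := by
  unfold vsum rest
  rw [Finset.sum_sdiff_eq_sub singles_subset]

lemma pshare_nonneg (x : Fin n) : 0 ≤ pshare S v j x :=
  Finset.sum_nonneg fun i _ => mul_nonneg (S.theta_pos j i).le (sq_nonneg _)

lemma sum_pshare (A : Finset (Fin n)) :
    ∑ x ∈ A, pshare S v j x = ∑ i ∈ S.Poor j, S.theta j i * gram v A i i := by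
  unfold pshare gram
  rw [Finset.sum_comm]
  simp [Finset.mul_sum, sq]

/-- At most `1 / eta` items are taken out. -/
lemma singles_card (hKg : 0 < Kg) (hN : NodeInv S v j U a b) :
    ((singles Kg S v j U).card : ℝ) * eta Kg ≤ 1 := by
  have he : 0 < eta Kg := by unfold eta; positivity
  have hT : 0 ≤ S.Tb j := le_trans (Finset.sum_nonneg fun i _ => mul_nonneg (S.theta_pos j i).le
    (Finset.sum_nonneg fun x _ => mul_self_nonneg _)) hN.poor_le
  unfold singles
  split_ifs with h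
  · simp
  rcases (U.filter fun x => eta Kg * S.Tb j < pshare S v j x).eq_empty_or_nonempty with h0 | ⟨y, hy⟩
  · simp [h0]
  set A := U.filter fun x => eta Kg * S.Tb j < pshare S v j x with hA
  have h1 : ∑ x ∈ A, eta Kg * S.Tb j ≤ ∑ x ∈ U, pshare S v j x :=
    (Finset.sum_le_sum fun x hx => (Finset.mem_filter.1 hx).2.le).trans
      (Finset.sum_le_sum_of_subset_of_nonneg (Finset.filter_subset _ _)
        fun x _ _ => pshare_nonneg x)
  rw [Finset.sum_const, nsmul_eq_mul, sum_pshare] at h1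
  have h2 : pshare S v j y ≤ S.Tb j :=
    (Finset.single_le_sum (fun x _ => pshare_nonneg x) (Finset.mem_filter.1 hy).1).trans
      (by rw [sum_pshare]; exact hN.poor_le)
  rcases hT.eq_or_lt with h3 | h3
  · exfalso
    have := (Finset.mem_filter.1 hy).2
    rw [← h3] at this h2
    linarith
  · nlinarith [hN.poor_le]

end Step

end Vale.Agent.P262
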