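import Vale.Agent.P262.Step.Child
import Vale.Agent.P262.Gauss.Interface

/-!
# P262: windows and transfers exist (DataProp)
-/

open Finset

namespace Vale.Agent.P262

variable {n d : ℕ} {P : Consts} {g : Fin d → ℝ}

/-- A larger constant also works. -/
lemma FreshBound.mono {K K' : ℝ} (hK : K ≤ K') {w : ℕ} (hw : 1 ≤ w) {v : Fin n → Fin d → ℝ}
    {U : Finset (Fin n)} {B N Q : Finset (Fin d)} {θ : Fin d → ℝ} {ω ω' : Fin d → Fin d → ℝ}
    {Ω Ω' : ℝ} {c : Fin n → ℝ} (hθ : ∀ i, 0 ≤ θ i) (hω : ∀ i k, 0 ≤ ω i k)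
    (hω' : ∀ i k, 0 ≤ ω' i k) (hΩ : 0 ≤ Ω) (hΩ' : 0 ≤ Ω')
    (h : FreshBound K w v U g B N Q θ ω ω' Ω Ω' c) :
    FreshBound K' w v U g B N Q θ ω ω' Ω Ω' c := by
  have hw' : (1 : ℝ) ≤ w := by exact_mod_cast hw
  obtain ⟨h1, h2, h3, h4, h5, h6, h7⟩ := h
  refine ⟨fun τ S hS hne => (h1 τ S hS hne).trans (mul_le_mul_of_nonneg_right hK ?_),
    h2.trans (mul_le_mul_of_nonneg_right hK ?_), ?_,
    h4.trans (mul_le_mul_of_nonneg_right hK ?_), h5.trans (mul_le_mul_of_nonneg_right hK ?_),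
    h6.trans (mul_le_mul_of_nonneg_right hK ?_),
    h7.trans (mul_le_mul_of_nonneg_right hK (Real.sqrt_nonneg _))⟩
  · have : (0 : ℝ) ≤ (S.card : ℝ) := Nat.cast_nonneg _
    linarith
  · positivity
  · exact h3.trans (mul_le_mul_of_nonneg_right (mul_le_mul_of_nonneg_right hK (by linarith))
      (sum_nonneg fun i _ => mul_nonneg (hθ i) (gram_diag_nonneg v U i)))
  · exact add_nonneg (sum_nonneg fun i _ => sum_nonneg fun k _ => hω i k) (by positivity)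
  · exact add_nonneg (sum_nonneg fun i _ => sum_nonneg fun k _ => hω' i k) (by positivity)
  · positivity

/-- Only the coefficients on `U` matter. -/
lemma FreshBound.congr {K : ℝ} {w : ℕ} {v : Fin n → Fin d → ℝ}
    {U : Finset (Fin n)} {B N Q : Finset (Fin d)} {θ : Fin d → ℝ} {ω ω' : Fin d → Fin d → ℝ}
    {Ω Ω' : ℝ} {c c' : Fin n → ℝ} (hc : ∀ x ∈ U, c x = c' x)
    (h : FreshBound K w v U g B N Q θ ω ω' Ω Ω' c) :
    FreshBound K w v U g B N Q θ ω ω' Ω Ω' c' := by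
  have hl : lin v U c = lin v U c' := by
    funext i; exact sum_congr rfl fun x hx => by rw [hc x hx]
  have hq : quad v U c = quad v U c' := by
    funext i k; exact sum_congr rfl fun x hx => by rw [hc x hx]
  obtain ⟨h1, h2, h3, h4, h5, h6, h7⟩ := h
  simp only [hl] at h1 h2 h3
  simp only [hq] at h4 h5 h6 h7
  exact ⟨h1, h2, h3, h4, h5, h6, h7⟩

namespace Step

variable {Kg : ℝ} {S : Sched P g} {v : Fin n → Fin d → ℝ} {j : ℕ} {U : Finset (Fin n)}
  {a b : Fin d → ℝ}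

lemma omega_bound (hκ : 1 ≤ kappa P.C0 (S.wd j)) (i k : Fin d) :
    0 ≤ omega S j i k ∧
      omega S j i k ≤ 2 * (kappa P.C0 (S.wd j) * Real.sqrt (kappa P.C0 (S.wd j)))⁻¹ := by
  unfold omega
  split_ifs with h
  · exact ⟨zWeight_nonneg _ _, zWeight_le_kappa hκ (S.kappa_le h.1) (S.kappa_le h.2)⟩
  · exact ⟨le_rfl, by positivity⟩

lemma omega'_bound (hκ : 1 ≤ kappa P.C0 (S.wd j)) (i k : Fin d) :
    0 ≤ omega' S j i k ∧ omega' S j i k ≤ (Real.sqrt (kappa P.C0 (S.wd j)))⁻¹ := by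
  unfold omega'
  split_ifs with h
  · refine ⟨by positivity, inv_anti₀ (Real.sqrt_pos.2 (by linarith)) ?_⟩
    exact Real.sqrt_le_sqrt (S.kappa_le h.2)
  · exact ⟨le_rfl, by positivity⟩

lemma win_lin (A : Finset (Fin n)) (f : Fin n → ℕ) (l m : ℕ) (i : Fin d) :
    vsum v (win A f l) i
      = vsum v A i / m + lin v A (pcoef f (l + 1) m) i - lin v A (pcoef f l m) i := by
  rw [lin_pcoef, lin_pcoef, vsum_filter_lt_succ]
  push_cast
  ring

lemma win_quad (A : Finset (Fin n)) (f : Fin n → ℕ) (l m : ℕ) (i k : Fin d) :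
    gram v (win A f l) i k
      = gram v A i k / m + quad v A (pcoef f (l + 1) m) i k - quad v A (pcoef f l m) i k := by
  rw [quad_pcoef, quad_pcoef, gram_filter_lt_succ]
  push_cast
  ring

lemma pair_gram (A : Finset (Fin n)) (f : Fin n → ℕ) {k : ℕ} (hk : 0 < k) (i l : Fin d) :
    gram v (pair A f k) i l = gram v (win A f (2 * k - 1)) i l + gram v (win A f (2 * k)) i l := by
  simp only [gram, pair, win, sum_filter, ← sum_add_distrib]
  refine sum_congr rfl fun x _ => ?_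
  by_cases he : f x = 2 * k
  · simp [he, show ¬ (2 * k = 2 * k - 1) by omega]
  · by_cases ho : f x + 1 = 2 * k
    · simp [show f x = 2 * k - 1 by omega, show ¬ (2 * k - 1 = 2 * k) by omega,
        show 2 * k - 1 + 1 = 2 * k by omega]
    · simp [he, ho, show ¬ (f x = 2 * k - 1) by omega]

lemma Sched_D_le {i k : Fin d} (h : g i ≤ g k) : S.D (j + 1) i ≤ S.D (j + 1) k :=
  div_le_div_of_nonneg_right h (by positivity)

/-- The weighted first-order error of a rounding. -/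
lemma lin_cost {Ci : ℝ} (hC0 : 1 ≤ P.C0) (hKg : 0 ≤ Kg)
    (hCi : ∀ (B : Finset (Fin d)) (D : Fin d → ℝ) (ε κ : ℝ), 1 ≤ κ → (∀ i ∈ B, κ ≤ D i) →
      (∀ x : ℝ, 1 ≤ x → ((B.filter fun i => D i ≤ x).card : ℝ) ≤ ε * x ^ (1 / 16 : ℝ)) →
      ∑ i ∈ B, (D i)⁻¹ ≤ Ci * ε)
    (hS : S.Valid) {A : Finset (Fin n)} {c : Fin n → ℝ} (h : Fresh Kg (S.wd j) S v j A c) :
    ∑ i ∈ S.Bal (j + 1), lin v A c i ^ 2 / S.D (j + 1) i
      ≤ Kg * (Ci * P.ε) + Kg / P.C0 * (S.wd j : ℝ) ^ (1 / 8 : ℝ) := by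
  set w := S.wd j
  have hw' : (1 : ℝ) ≤ w := by exact_mod_cast S.wd_pos j
  obtain ⟨hκC, -⟩ := kappa_lower hC0 (S.wd_pos j)
  set κ := kappa P.C0 w with hκdef
  have hκ1 : 1 ≤ κ := hC0.trans hκC
  have hD : ∀ i ∈ S.Bal (j + 1), κ ≤ S.D (j + 1) i := fun i hi => S.kappa_le hi
  have hsum := hCi _ _ P.ε κ hκ1 hD (hS.good (j + 1) (Nat.succ_pos j))
  have h1 := layer (B := S.Bal (j + 1)) (g := g) (a := fun i => lin v A c i ^ 2)
    (φ := fun i => (S.D (j + 1) i)⁻¹) (c := Kg) (e := Kg * ((w : ℝ) - 1)) (M := κ⁻¹)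
    (fun i hi => inv_nonneg.2 (by linarith [hD i hi]))
    (fun i hi k hk hik => inv_anti₀ (by linarith [hD i hi]) (Sched_D_le hik))
    (fun i hi => inv_anti₀ (by linarith) (hD i hi))
    (fun τ hne => by rw [← mul_add]; exact h.segment τ _ rfl hne)
    (mul_nonneg hKg (by linarith)) (by positivity)
  calc ∑ i ∈ S.Bal (j + 1), lin v A c i ^ 2 / S.D (j + 1) i
      = ∑ i ∈ S.Bal (j + 1), (S.D (j + 1) i)⁻¹ * lin v A c i ^ 2 :=
        sum_congr rfl fun i _ => by ring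
    _ ≤ _ := h1
    _ ≤ Kg * (Ci * P.ε) + Kg * ((w : ℝ) * κ⁻¹) := by
        refine add_le_add (mul_le_mul_of_nonneg_left hsum hKg) ?_
        rw [mul_assoc]
        exact mul_le_mul_of_nonneg_left
          (mul_le_mul_of_nonneg_right (by linarith) (by positivity)) hKg
    _ = _ := by
        have h78 : (0 : ℝ) < (w : ℝ) ^ (7 / 8 : ℝ) := by positivity
        have : (w : ℝ) = (w : ℝ) ^ (1 / 8 : ℝ) * (w : ℝ) ^ (7 / 8 : ℝ) := by
          rw [← Real.rpow_add (by linarith)]; norm_num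
        have he : (w : ℝ) * κ⁻¹ = (w : ℝ) ^ (1 / 8 : ℝ) / P.C0 := by
          rw [hκdef, kappa]
          nth_rw 1 [this]
          field_simp
        rw [he]; ring

/-- The target of the transfers is cheap. -/
lemma cost_bound {Ci Cs : ℝ} (hC0 : 1 ≤ P.C0) (hKg : 0 ≤ Kg) (hKg' : 0 < Kg)
    (hCi : ∀ (B : Finset (Fin d)) (D : Fin d → ℝ) (ε κ : ℝ), 1 ≤ κ → (∀ i ∈ B, κ ≤ D i) →
      (∀ x : ℝ, 1 ≤ x → ((B.filter fun i => D i ≤ x).card : ℝ) ≤ ε * x ^ (1 / 16 : ℝ)) →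
      ∑ i ∈ B, (D i)⁻¹ ≤ Ci * ε)
    (hCs : ∀ (B : Finset (Fin d)) (D : Fin d → ℝ) (ε κ : ℝ), 1 ≤ κ → (∀ i ∈ B, κ ≤ D i) →
      (∀ x : ℝ, 1 ≤ x → ((B.filter fun i => D i ≤ x).card : ℝ) ≤ ε * x ^ (1 / 16 : ℝ)) →
      ∑ i ∈ B, (Real.sqrt (D i))⁻¹ ≤ Cs * ε)
    (hyp : Hyp S v j U a b) {f : Fin n → ℕ}
    (hf : ∀ k ≤ 2 ^ (S.wd j + 1), Fresh Kg (S.wd j) S v j (rest Kg S v j U)
      (pcoef f k (2 ^ (S.wd j + 1))))
    {k : ℕ} (hk0 : 0 < k) (hk : k < 2 ^ S.wd j) :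
    cost S v j (rest Kg S v j U) f k a b
      ≤ 4 * (Cs * P.ε) + 4 * (1 / eta Kg) ^ 2 * (Ci * P.ε)
        + 10 * (Kg * (Ci * P.ε) + Kg / P.C0 * (S.wd j : ℝ) ^ (1 / 8 : ℝ)) := by
  obtain ⟨hS, hg, hv, hN⟩ := hyp
  set w := S.wd j
  set R := rest Kg S v j U with hR
  obtain ⟨hκC, -⟩ := kappa_lower hC0 (S.wd_pos j)
  set κ := kappa P.C0 w
  have hκ1 : 1 ≤ κ := hC0.trans hκC
  set B := S.Bal (j + 1)
  set D := S.D (j + 1)
  have hD : ∀ i ∈ B, κ ≤ D i := fun i hi => S.kappa_le hi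
  have hgood := hS.good (j + 1) (Nat.succ_pos j)
  set m := 2 ^ (w + 1) with hm
  have hkm : 2 * k + 1 ≤ m := by rw [hm, pow_succ]; omega
  set L : ℕ → Fin d → ℝ := fun l i => lin v R (pcoef f l m) i with hL
  have hLb : ∀ l, l ≤ m → ∑ i ∈ B, L l i ^ 2 / D i
      ≤ Kg * (Ci * P.ε) + Kg / P.C0 * (w : ℝ) ^ (1 / 8 : ℝ) := fun l hl =>
    lin_cost hC0 hKg hCi hS (hf l hl)
  set sg := singles Kg S v j U
  have hterm : ∀ i ∈ B, target S v j R f k a b i ^ 2 / D i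
      ≤ 4 * (Real.sqrt (D i))⁻¹ + 4 * (1 / eta Kg) ^ 2 * (D i)⁻¹
        + (6 * (L (2 * k) i ^ 2 / D i) + 2 * (L (2 * k + 1) i ^ 2 / D i)
          + 2 * (L (2 * k - 1) i ^ 2 / D i)) := by
    intro i hi
    have hD1 : 1 ≤ D i := hκ1.trans (hD i hi)
    have hD0 : 0 < D i := by linarith
    set c := clip (D i) (interp w k a b i)
    have hc : c ^ 2 ≤ Real.sqrt (D i) := by
      have h0 : 0 ≤ Real.sqrt (Real.sqrt (D i)) := Real.sqrt_nonneg _
      have h1 : -Real.sqrt (Real.sqrt (D i)) ≤ c ∧ c ≤ Real.sqrt (Real.sqrt (D i)) :=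
        ⟨le_max_left _ _, max_le (by linarith) (min_le_left _ _)⟩
      calc c ^ 2 ≤ Real.sqrt (Real.sqrt (D i)) ^ 2 := sq_le_sq' h1.1 h1.2
        _ = Real.sqrt (D i) := Real.sq_sqrt (Real.sqrt_nonneg _)
    set σ := vsum v sg i
    have hF : (0 : ℝ) < 2 ^ w := by positivity
    have hew : pre R v f k a i - interp w k a b i = L (2 * k) i - (k : ℝ) / 2 ^ w * σ := by
      have h1 := lin_pcoef (v := v) R f (2 * k) m i
      have h2 : vsum v R i = vsum v U i - σ := vsum_rest i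
      have h3 := hN.sum_eq i
      simp only [pre, interp, hL]
      rw [h1, h3, h2, hm, pow_succ]
      push_cast
      field_simp
      ring
    have hdel : delta R v f k i = L (2 * k + 1) i - 2 * L (2 * k) i + L (2 * k - 1) i := by
      simp only [delta, hL]
      rw [win_lin R f (2 * k) m i, win_lin R f (2 * k - 1) m i, show 2 * k - 1 + 1 = 2 * k by omega]
      ring
    have hs : |σ| ≤ 1 / eta Kg := by
      calc |σ| ≤ ∑ x ∈ sg, |v x i| := abs_sum_le_sum_abs _ _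
        _ ≤ ∑ _x ∈ sg, (1 : ℝ) := sum_le_sum fun x _ => (sq_le_one_iff_abs_le_one _).1
            ((single_le_sum (f := fun i => v x i ^ 2) (fun i _ => sq_nonneg _) (mem_univ i)).trans
              (hv x))
        _ = (sg.card : ℝ) := by simp
        _ ≤ 1 / eta Kg := by
            rw [le_div_iff₀ (by unfold eta; positivity)]; exact singles_card hKg' hN
    have hkF : (k : ℝ) / 2 ^ w ≤ 1 := by
      rw [div_le_one hF]; exact_mod_cast hk.le
    have hs2 : ((k : ℝ) / 2 ^ w * σ) ^ 2 ≤ (1 / eta Kg) ^ 2 := by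
      rw [← sq_abs]
      refine pow_le_pow_left₀ (abs_nonneg _) ?_ 2
      rw [abs_mul, abs_of_nonneg (by positivity : (0 : ℝ) ≤ (k : ℝ) / 2 ^ w)]
      exact (mul_le_of_le_one_left (abs_nonneg _) hkF).trans hs
    have hsq : target S v j R f k a b i ^ 2 ≤ 4 * c ^ 2 + 4 * ((k : ℝ) / 2 ^ w * σ) ^ 2
        + (6 * L (2 * k) i ^ 2 + 2 * L (2 * k + 1) i ^ 2 + 2 * L (2 * k - 1) i ^ 2) := by
      have ht : target S v j R f k a b i = c + (L (2 * k) i - (k : ℝ) / 2 ^ w * σ)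
          + (L (2 * k + 1) i - 2 * L (2 * k) i + L (2 * k - 1) i) / 4 := by
        simp only [target]; rw [hew, hdel]
      rw [ht]
      set s := (k : ℝ) / 2 ^ w * σ
      nlinarith [sq_nonneg (c + s), sq_nonneg (c - L (2 * k) i / 2),
        sq_nonneg (c - (L (2 * k + 1) i + L (2 * k - 1) i) / 4),
        sq_nonneg (s + L (2 * k) i / 2), sq_nonneg (s + (L (2 * k + 1) i + L (2 * k - 1) i) / 4),
        sq_nonneg (L (2 * k) i / 2 - (L (2 * k + 1) i + L (2 * k - 1) i) / 4),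
        sq_nonneg (L (2 * k + 1) i - L (2 * k - 1) i)]
    have hsD : Real.sqrt (D i) / D i = (Real.sqrt (D i))⁻¹ := by
      rw [Real.sqrt_div_self]
    calc target S v j R f k a b i ^ 2 / D i
        ≤ (4 * Real.sqrt (D i) + 4 * (1 / eta Kg) ^ 2
          + (6 * L (2 * k) i ^ 2 + 2 * L (2 * k + 1) i ^ 2 + 2 * L (2 * k - 1) i ^ 2)) / D i := by
          refine div_le_div_of_nonneg_right ?_ hD0.le
          linarith
      _ = 4 * (Real.sqrt (D i) / D i) + 4 * (1 / eta Kg) ^ 2 * (D i)⁻¹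
          + (6 * (L (2 * k) i ^ 2 / D i) + 2 * (L (2 * k + 1) i ^ 2 / D i)
            + 2 * (L (2 * k - 1) i ^ 2 / D i)) := by ring
      _ = _ := by rw [hsD]
  refine (sum_le_sum hterm).trans ?_
  simp only [sum_add_distrib, ← mul_sum]
  have e1 := hLb (2 * k) (by omega)
  have e2 := hLb (2 * k + 1) hkm
  have e3 := hLb (2 * k - 1) (by omega)
  have e4 := hCs B D P.ε κ hκ1 hD hgood
  have e5 := mul_le_mul_of_nonneg_left (hCi B D P.ε κ hκ1 hD hgood)
    (by positivity : (0 : ℝ) ≤ 4 * (1 / eta Kg) ^ 2)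
  linarith

/-- The two windows at a boundary are nearly balanced. -/
lemma pair_bnorm {Cz A : ℝ} (hKg : 0 ≤ Kg) (hKg' : 0 < Kg) (hC0 : 1 ≤ P.C0)
    (hz0 : P.z0 = 1 / 16)
    (hCz : ∀ (B : Finset (Fin d)) (D : Fin d → ℝ) (ε κ : ℝ), 1 ≤ κ → (∀ i ∈ B, κ ≤ D i) →
      (∀ x : ℝ, 1 ≤ x → ((B.filter fun i => D i ≤ x).card : ℝ) ≤ ε * x ^ (1 / 16 : ℝ)) →
      ∑ i ∈ B, ∑ k ∈ B, zWeight (D i) (D k) ≤ Cz * ε ^ 2)
    (hA : A ≤ 1 / 1000) (hA1 : Kg * (Cz * P.ε ^ 2 + 2 / P.C0) ≤ A)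
    (hA2 : (1 / eta Kg) ^ 2 * (Cz * P.ε ^ 2) ≤ A)
    (hyp : Hyp S v j U a b) {f : Fin n → ℕ}
    (hf : ∀ k ≤ 2 ^ (S.wd j + 1), Fresh Kg (S.wd j) S v j (rest Kg S v j U)
      (pcoef f k (2 ^ (S.wd j + 1))))
    {k : ℕ} (hk0 : 0 < k) (hk : k < 2 ^ S.wd j) :
    bnorm S j (fun i l => gram v (pair (rest Kg S v j U) f k) i l
      - if i = l then S.D (j + 1) i else 0) ≤ 1 / 4 := by
  set w := S.wd j with hwdef
  set R := rest Kg S v j U
  set m := 2 ^ (w + 1) with hm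
  have hkm : 2 * k + 1 ≤ m := by rw [hm, pow_succ]; omega
  set e : ℕ → Fin d → Fin d → ℝ := fun l => quad v R (pcoef f l m) with he
  have hκ1 : 1 ≤ kappa P.C0 w := hC0.trans (kappa_lower hC0 (S.wd_pos j)).1
  have heb : ∀ l, l ≤ m → bnorm S j (e l) ≤ A := by
    intro l hl
    have := (hf l hl).bal
    rw [bnorm_omega, omega_total] at this
    refine this.trans (le_trans (mul_le_mul_of_nonneg_left (add_le_add ?_ ?_) hKg) hA1)
    · exact hCz _ _ P.ε _ hκ1 (fun i hi => S.kappa_le hi)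
        (hyp.valid.good (j + 1) (Nat.succ_pos j))
    · exact width_kappa hC0 (S.wd_pos j)
  have hmain := main_bnorm hC0 hz0 hyp
  have hsing := (singles_bnorm hKg' hC0 hCz hyp).trans hA2
  refine (bnorm_comb 4 4 4 4
    (h₁ := fun i l => (gram v U i l - if i = l then S.D j i else 0) / 2 ^ S.wd j)
    (h₂ := e (2 * k + 1)) (h₃ := e (2 * k - 1))
    (h₄ := fun i l => gram v (singles Kg S v j U) i l / 2 ^ S.wd j) fun i _ l _ => ?_).trans ?_
  · have hR : gram v R i l = gram v U i l - gram v (singles Kg S v j U) i l := by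
      simp only [R, gram, rest]
      rw [sum_sdiff_eq_sub singles_subset]
    have hid : gram v (pair R f k) i l - (if i = l then S.D (j + 1) i else 0)
        = (gram v U i l - if i = l then S.D j i else 0) / 2 ^ w + e (2 * k + 1) i l
          - e (2 * k - 1) i l - gram v (singles Kg S v j U) i l / 2 ^ w := by
      rw [pair_gram R f hk0, win_quad R f (2 * k - 1) m, win_quad R f (2 * k) m,
        show 2 * k - 1 + 1 = 2 * k by omega, hR, S.D_succ, hm, ← hwdef]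
      simp only [he, hm, pow_succ]
      push_cast
      split_ifs <;> ring
    rw [hid]
    set p1 := (gram v U i l - if i = l then S.D j i else 0) / 2 ^ w
    set p4 := gram v (singles Kg S v j U) i l / 2 ^ w
    nlinarith [sq_nonneg (p1 - e (2 * k + 1) i l), sq_nonneg (p1 + e (2 * k - 1) i l),
      sq_nonneg (p1 + p4), sq_nonneg (e (2 * k + 1) i l + e (2 * k - 1) i l),
      sq_nonneg (e (2 * k + 1) i l + p4), sq_nonneg (e (2 * k - 1) i l - p4)]
  · rw [hz0] at hmain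
    linarith [heb (2 * k + 1) hkm, heb (2 * k - 1) (by omega)]

/-- The transfers at one boundary. -/
lemma exists_bdry {K : ℝ} (hK : K ≤ Kg) (hC0 : 40000 ≤ P.C0)
    (ht : ∀ (n d : ℕ) (v : Fin n → Fin d → ℝ), (∀ x, ∑ i, v x i ^ 2 ≤ 1) →
      ∀ (U : Finset (Fin n)) (g : Fin d → ℝ) (B N Q : Finset (Fin d)) (θ : Fin d → ℝ)
        (ω ω' : Fin d → Fin d → ℝ) (Ω Ω' : ℝ),
        (∀ i, 0 ≤ θ i) → (∀ i k, 0 ≤ ω i k ∧ ω i k ≤ Ω) → (∀ i k, 0 ≤ ω' i k ∧ ω' i k ≤ Ω') →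
        0 ≤ Ω → 0 ≤ Ω' →
      ∀ (y σ : Fin n → ℝ), (∀ x, 0 ≤ y x ∧ y x ≤ 1) → (∀ x, σ x = 1 ∨ σ x = -1) →
      ∃ M : Finset (Fin n), M ⊆ U ∧ FreshBound K 1 v U g B N Q θ ω ω' Ω Ω'
        (fun x => σ x * ((if x ∈ M then 1 else 0) - y x)))
    (hyp : Hyp S v j U a b) {f : Fin n → ℕ} {k : ℕ}
    (hcost : cost S v j (rest Kg S v j U) f k a b ≤ (S.wd j : ℝ) ^ (1 / 8 : ℝ))
    (hbal : bnorm S j (fun i l => gram v (pair (rest Kg S v j U) f k) i l
      - if i = l then S.D (j + 1) i else 0) ≤ 1 / 4) :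
    Nonempty (Bdry Kg S v j (rest Kg S v j U) f k a b) := by
  obtain ⟨hS, hg, hv, hN⟩ := hyp
  set w := S.wd j
  have hw' : (1 : ℝ) ≤ w := by exact_mod_cast S.wd_pos j
  have hC1 : (1 : ℝ) ≤ P.C0 := by linarith
  obtain ⟨hκC, hκw⟩ := kappa_lower hC1 (S.wd_pos j)
  set κ := kappa P.C0 w with hκdef
  have hκ1 : 1 ≤ κ := hC1.trans hκC
  set B := S.Bal (j + 1)
  set D := S.D (j + 1)
  have hD : ∀ i ∈ B, κ ≤ D i := fun i hi => S.kappa_le hi
  set R := rest Kg S v j U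
  set A := pair R f k
  set t := target S v j R f k a b
  have hG : ∑ i ∈ B, ∑ l ∈ B, (gram v A i l - if i = l then D i else 0) ^ 2 / (D i * D l)
      ≤ 1 / 4 := by
    refine le_trans (sum_le_sum fun i hi => sum_le_sum fun l hl => ?_) hbal
    rw [div_eq_inv_mul]
    exact mul_le_mul_of_nonneg_right
      (inv_mul_le_zWeight (hκ1.trans (hD i hi)) (hκ1.trans (hD l hl))) (sq_nonneg _)
  obtain ⟨z, -, hz, hen, hq⟩ := solve_shift B (gram v A) D
    (fun i hi => by linarith [hD i hi]) hG t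
  set shift : Fin n → ℝ := fun x => ∑ i ∈ B, z i * v x i
  have hcost0 : 0 ≤ cost S v j R f k a b :=
    sum_nonneg fun i hi => div_nonneg (sq_nonneg _) (by linarith [hD i hi] : (0 : ℝ) ≤ D i)
  have hsle : ∀ x, |shift x| ≤ 2 * Real.sqrt (cost S v j R f k a b / κ) := fun x =>
    abs_shift_le v hv (by linarith) hD hen x
  have hsmall : ∀ x, |shift x| ≤ 1 / 100 := by
    intro x
    refine (hsle x).trans ?_
    have h1 : cost S v j R f k a b / κ ≤ (1 / 200) ^ 2 := by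
      rw [div_le_iff₀ (by linarith)]
      refine hcost.trans ?_
      have h2 : (w : ℝ) ^ (1 / 8 : ℝ) ≤ (w : ℝ) ^ (7 / 8 : ℝ) :=
        Real.rpow_le_rpow_of_exponent_le hw' (by norm_num)
      have h3 : 40000 * (w : ℝ) ^ (7 / 8 : ℝ) ≤ κ :=
        mul_le_mul_of_nonneg_right hC0 (by positivity)
      norm_num
      linarith
    calc 2 * Real.sqrt (cost S v j R f k a b / κ) ≤ 2 * (1 / 200) :=
          mul_le_mul_of_nonneg_left (Real.sqrt_le_iff.2 ⟨by norm_num, h1⟩) (by norm_num)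
      _ = 1 / 100 := by norm_num
  have hside : ∀ x, side f k x = 1 ∨ side f k x = -1 := fun x => by
    unfold side; split_ifs <;> simp
  have hy : ∀ x, 0 ≤ 1 / 4 + side f k x * shift x ∧ 1 / 4 + side f k x * shift x ≤ 1 := by
    intro x
    have h := abs_le.1 (hsmall x)
    rcases hside x with h' | h' <;> rw [h'] <;> constructor <;> linarith
  obtain ⟨M, hM, hMf⟩ := ht n d v hv A g B (S.New j) (S.Poor j) (S.theta j) (omega S j)
    (omega' S j) _ _ (fun i => (S.theta_pos j i).le) (omega_bound hκ1) (omega'_bound hκ1)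
    (by positivity) (by positivity) (fun x => 1 / 4 + side f k x * shift x) (side f k) hy hside
  refine ⟨⟨z, shift, M, fun x => rfl, fun i hi => ?_, hcost, hen, ?_, fun x _ => hsle x,
    fun i hi => ?_, hM, ?_⟩⟩
  · rw [← gram_mul_eq_lin]; exact hz i hi
  · rw [← gram_form]; exact hq
  · have hD1 : 1 ≤ D i := hκ1.trans (hD i hi)
    have h1 : zWeight (D i) (D i) * (gram v A i i - D i) ^ 2 ≤ 1 / 4 := by
      refine le_trans ?_ hbal
      refine le_trans ?_ (single_le_sum (f := fun i => ∑ l ∈ B, zWeight (D i) (D l) *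
        (gram v A i l - if i = l then D i else 0) ^ 2)
        (fun i _ => sum_nonneg fun l _ => mul_nonneg (zWeight_nonneg _ _) (sq_nonneg _)) hi)
      refine le_trans ?_ (single_le_sum (f := fun l => zWeight (D i) (D l) *
        (gram v A i l - if i = l then D i else 0) ^ 2)
        (fun l _ => mul_nonneg (zWeight_nonneg _ _) (sq_nonneg _)) hi)
      simp
    rw [zWeight_self hD1, inv_mul_le_iff₀ (by positivity)] at h1
    have hs : Real.sqrt (D i) ≤ D i := by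
      rw [Real.sqrt_le_left (by linarith)]; nlinarith
    have h2 : (gram v A i i - D i) ^ 2 ≤ (2 * D i) ^ 2 := by nlinarith
    have := abs_le.1 (abs_le_of_sq_le_sq h2 (by linarith))
    linarith
  · exact hMf.mono hK le_rfl (fun i => (S.theta_pos j i).le) (fun i l => (omega_bound hκ1 i l).1)
      (fun i l => (omega'_bound hκ1 i l).1) (by positivity) (by positivity)

/-- Windows and transfers exist for every sufficiently large `Kg`. -/
theorem dataProp_of (hw : WindowsProp) (ht : TransferProp) :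
    ∃ K : ℝ, 1 ≤ K ∧ ∀ Kg, K ≤ Kg → DataProp Kg := by
  obtain ⟨K₁, hK₁, hw⟩ := hw
  obtain ⟨K₂, hK₂, ht⟩ := ht
  refine ⟨max K₁ K₂, le_max_of_le_left hK₁, fun Kg hKg => ⟨0, fun K _ _ => ?_⟩⟩
  have hKg1 : 1 ≤ Kg := hK₁.trans ((le_max_left _ _).trans hKg)
  obtain ⟨Cz, hCz0, hCz⟩ := zWeight_sum (ι := ℕ)
  obtain ⟨Ci, hCi0, hCi⟩ := count_inv (ι := ℕ)
  obtain ⟨Cs, hCs0, hCs⟩ := count_inv_sqrt (ι := ℕ)
  set η := (1 / eta Kg) ^ 2
  have hη : 0 ≤ η := sq_nonneg _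
  set M := 4 * Cs + 4 * η * Ci + 10 * Kg * Ci + Kg * Cz + η * Cz + 1 with hM
  have p1 : 0 ≤ η * Ci := by positivity
  have p2 : 0 ≤ Kg * Ci := by positivity
  have p3 : 0 ≤ Kg * Cz := by positivity
  have p4 : 0 ≤ η * Cz := by positivity
  have hM1 : 1 ≤ M := by rw [hM]; linarith
  refine ⟨1 / (4000 * M), by positivity, fun ε hε hεe => ?_⟩
  refine ⟨max 40000 (8000 * Kg), fun C0 hC _ => ⟨0, fun Cb _ _ => ?_⟩⟩
  intro n d g S v j U a b hyp
  have hC1 : 40000 ≤ C0 := le_of_max_le_left hC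
  have hC2 : 8000 * Kg ≤ C0 := le_of_max_le_right hC
  have hKC : Kg / C0 ≤ 1 / 8000 := by rw [div_le_iff₀ (by linarith)]; linarith
  have hMe : M * ε ≤ 1 / 4000 := by
    rw [le_div_iff₀ (by positivity)] at hεe; linarith
  have hε1 : ε ≤ 1 := hεe.trans (by rw [div_le_one (by positivity)]; linarith)
  have hC0' : (1 : ℝ) ≤ C0 := by linarith
  have hκ1 : 1 ≤ kappa C0 (S.wd j) := hC0'.trans (kappa_lower hC0' (S.wd_pos j)).1
  -- counting for coordinates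
  have tCz : ∀ (B : Finset (Fin d)) (D : Fin d → ℝ) (ε κ : ℝ), 1 ≤ κ → (∀ i ∈ B, κ ≤ D i) →
      (∀ x : ℝ, 1 ≤ x → ((B.filter fun i => D i ≤ x).card : ℝ) ≤ ε * x ^ (1 / 16 : ℝ)) →
      ∑ i ∈ B, ∑ k ∈ B, zWeight (D i) (D k) ≤ Cz * ε ^ 2 := by
    intro B D ε' κ hκ hD hB
    obtain ⟨B', D', h1, h2, h3⟩ := transport_fin B D
    have := hCz B' D' ε' κ hκ (h1 κ hD) (fun x hx => by rw [h2]; exact hB x hx)
    rw [h3 (fun t => ∑ k ∈ B', zWeight t (D' k))] at this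
    refine le_trans (le_of_eq (sum_congr rfl fun i _ => ?_)) this
    exact (h3 (zWeight (D i))).symm
  have tCi : ∀ (B : Finset (Fin d)) (D : Fin d → ℝ) (ε κ : ℝ), 1 ≤ κ → (∀ i ∈ B, κ ≤ D i) →
      (∀ x : ℝ, 1 ≤ x → ((B.filter fun i => D i ≤ x).card : ℝ) ≤ ε * x ^ (1 / 16 : ℝ)) →
      ∑ i ∈ B, (D i)⁻¹ ≤ Ci * ε := by
    intro B D ε' κ hκ hD hB
    obtain ⟨B', D', h1, h2, h3⟩ := transport_fin B D
    have h := hCi B' D' ε' κ hκ (h1 κ hD) (fun x hx => by rw [h2]; exact hB x hx)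
    rw [h3 (fun t => t⁻¹)] at h
    have hε' : 0 ≤ ε' := by simpa using (Nat.cast_nonneg _).trans (hB 1 le_rfl)
    exact h.trans (mul_le_of_le_one_right (by positivity)
      (Real.rpow_le_one_of_one_le_of_nonpos hκ (by norm_num)))
  have tCs : ∀ (B : Finset (Fin d)) (D : Fin d → ℝ) (ε κ : ℝ), 1 ≤ κ → (∀ i ∈ B, κ ≤ D i) →
      (∀ x : ℝ, 1 ≤ x → ((B.filter fun i => D i ≤ x).card : ℝ) ≤ ε * x ^ (1 / 16 : ℝ)) →
      ∑ i ∈ B, (Real.sqrt (D i))⁻¹ ≤ Cs * ε := by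
    intro B D ε' κ hκ hD hB
    obtain ⟨B', D', h1, h2, h3⟩ := transport_fin B D
    have h := hCs B' D' ε' κ hκ (h1 κ hD) (fun x hx => by rw [h2]; exact hB x hx)
    rw [h3 (fun t => (Real.sqrt t)⁻¹)] at h
    have hε' : 0 ≤ ε' := by simpa using (Nat.cast_nonneg _).trans (hB 1 le_rfl)
    exact h.trans (mul_le_of_le_one_right (by positivity)
      (Real.rpow_le_one_of_one_le_of_nonpos hκ (by norm_num)))
  -- windows
  obtain ⟨f, hf, hfr⟩ := hw n d v hyp.norm_le (rest Kg S v j U) g (S.Bal (j + 1)) (S.New j)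
    (S.Poor j) (S.theta j) (omega S j) (omega' S j) _ _ (fun i => (S.theta_pos j i).le)
    (omega_bound hκ1) (omega'_bound hκ1) (by positivity) (by positivity) (S.wd j)
    (2 ^ (S.wd j + 1)) (S.wd_pos j) rfl
  have hfresh : ∀ k ≤ 2 ^ (S.wd j + 1), Fresh Kg (S.wd j) S v j (rest Kg S v j U)
      (pcoef f k (2 ^ (S.wd j + 1))) := fun k hk =>
    (hfr k hk).mono ((le_max_left _ _).trans hKg) (S.wd_pos j) (fun i => (S.theta_pos j i).le)
      (fun i l => (omega_bound hκ1 i l).1) (fun i l => (omega'_bound hκ1 i l).1)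
      (by positivity) (by positivity)
  have hex : ∀ k : ℕ, 0 < k → k < 2 ^ S.wd j →
      Nonempty (Bdry Kg S v j (rest Kg S v j U) f k a b) := by
    intro k hk0 hk
    refine exists_bdry ((le_max_right _ _).trans hKg) hC1 ht hyp ?_ ?_
    · have h := cost_bound (Ci := Ci) (Cs := Cs) hC0' (by linarith) (by linarith) tCi tCs hyp
        hfresh hk0 hk
      refine h.trans ?_
      show 4 * (Cs * ε) + 4 * η * (Ci * ε)
          + 10 * (Kg * (Ci * ε) + Kg / C0 * (S.wd j : ℝ) ^ (1 / 8 : ℝ)) ≤ _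
      have hwp : (1 : ℝ) ≤ (S.wd j : ℝ) ^ (1 / 8 : ℝ) :=
        Real.one_le_rpow (by exact_mod_cast S.wd_pos j) (by norm_num)
      have h4 : 4 * (Cs * ε) + 4 * η * (Ci * ε) + 10 * (Kg * (Ci * ε)) ≤ M * ε := by
        have h5 : M * ε = 4 * (Cs * ε) + 4 * η * (Ci * ε) + 10 * (Kg * (Ci * ε))
            + (Kg * Cz + η * Cz + 1) * ε := by rw [hM]; ring
        have h6 : 0 ≤ (Kg * Cz + η * Cz + 1) * ε := mul_nonneg (by linarith) hε.le
        linarith
      have h7 : Kg / C0 * (S.wd j : ℝ) ^ (1 / 8 : ℝ) ≤ 1 / 8000 * (S.wd j : ℝ) ^ (1 / 8 : ℝ) :=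
        mul_le_mul_of_nonneg_right hKC (by linarith)
      linarith
    · have he2 : ε ^ 2 ≤ ε := by rw [sq]; exact mul_le_of_le_one_left hε.le hε1
      have h8 : (Kg * Cz + η * Cz) * ε ^ 2 ≤ M * ε :=
        mul_le_mul (by rw [hM]; nlinarith) he2 (sq_nonneg _) (by linarith)
      have h9 : 0 ≤ Kg * Cz * ε ^ 2 := by positivity
      have h10 : 0 ≤ η * Cz * ε ^ 2 := by positivity
      refine pair_bnorm (Cz := Cz) (A := 1 / 1000) (by linarith) (by linarith) hC0' rfl tCz le_rfl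
        ?_ ?_ hyp hfresh hk0 hk
      · show Kg * (Cz * ε ^ 2 + 2 / C0) ≤ _
        have : Kg * (2 / C0) ≤ 1 / 4000 := by
          rw [mul_div_assoc', div_le_iff₀ (by linarith)]; linarith
        rw [mul_add]
        linarith
      · show η * (Cz * ε ^ 2) ≤ _
        linarith
  choose bd hbd using fun (k : ℕ) (h0 : 0 < k) (h1 : k < 2 ^ S.wd j) =>
    (⟨(hex k h0 h1).some, trivial⟩ : ∃ _ : Bdry Kg S v j (rest Kg S v j U) f k a b, True)
  exact ⟨⟨f, hf, hfresh, bd⟩⟩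

/-- **DataProp.** -/
theorem exists_dataProp : ∃ K : ℝ, 1 ≤ K ∧ ∀ Kg, K ≤ Kg → DataProp Kg :=
  dataProp_of Gauss.windowsProp Gauss.transferProp

end Step

end Vale.Agent.P262
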