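import Vale.Agent.P262.Step.Data

/-!
# P262: assembly of one step
-/

open scoped BigOperators

namespace Vale.Agent.P262

variable {n d : ℕ} {P : Consts} {g : Fin d → ℝ}

lemma Sched.beta_le (S : Sched P g) (j : ℕ) (i : Fin d) : S.beta j i ≤ 15 := by
  set r := (Real.sqrt 2)⁻¹ with hr
  have h2 : (7 : ℝ) / 5 ≤ Real.sqrt 2 := Real.le_sqrt_of_sq_le (by norm_num)
  have hr1 : r ≤ 3 / 4 := by
    rw [hr, inv_le_comm₀ (by linarith) (by norm_num)]; linarith
  have hr0 : 0 ≤ r := by positivity
  have h1 : ∀ m : ℕ, ∑ a ∈ Finset.range m, (Real.sqrt 2 ^ a)⁻¹ ≤ 4 := fun m => by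
    simp only [← inv_pow, ← hr]
    calc ∑ a ∈ Finset.range m, r ^ a ≤ ∑ a ∈ Finset.range m, (3 / 4 : ℝ) ^ a :=
          Finset.sum_le_sum fun a _ => pow_le_pow_left₀ hr0 hr1 a
      _ ≤ 4 := by
          rw [geom_sum_eq (by norm_num)]
          have : 0 ≤ (3 / 4 : ℝ) ^ m := by positivity
          rw [div_le_iff_of_neg (by norm_num)]
          linarith
  have h3 : (S.theta j i)⁻¹ ≤ 1 := inv_le_one_of_one_le₀ (S.one_le_theta j i)
  have := h1 (S.age j i)
  unfold Sched.beta
  split_ifs <;> linarith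

namespace Step

variable {Kg : ℝ} {S : Sched P g} {v : Fin n → Fin d → ℝ} {j : ℕ} {U : Finset (Fin n)}
  {a b : Fin d → ℝ}

lemma PotOK.sum_sq {p : Fin d → ℝ} (h : PotOK S j p) (hg : ∀ i, 0 ≤ g i) (hK : 0 ≤ P.K) :
    ∑ i, p i ^ 2 ≤ 15 * (S.Bud (j + 1) + P.K * d) := by
  have h := h (∑ i, g i)
  have hall : (S.Bal (j + 1)).filter (fun i => g i ≤ ∑ k, g k) = S.Bal (j + 1) :=
    Finset.filter_true_of_mem fun i _ => Finset.single_le_sum (fun k _ => hg k) (Finset.mem_univ i)
  rw [hall] at h
  have hc : ((S.Bal (j + 1)).card : ℝ) ≤ d := by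
    exact_mod_cast (Finset.card_le_univ _).trans (Fintype.card_fin d).le
  have h1 : ∑ i ∈ S.Poor (j + 1), p i ^ 2 ≤
      15 * ∑ i ∈ S.Poor (j + 1), p i ^ 2 / S.beta (j + 1) i := by
    rw [Finset.mul_sum]
    refine Finset.sum_le_sum fun i _ => ?_
    have hb := S.two_le_beta (j + 1) i
    rw [mul_div_assoc', le_div_iff₀ (by linarith)]
    nlinarith [S.beta_le (j + 1) i, sq_nonneg (p i)]
  have h2 : 0 ≤ ∑ i ∈ S.Bal (j + 1), p i ^ 2 := Finset.sum_nonneg fun i _ => sq_nonneg _
  rw [← Finset.sum_sdiff (Finset.subset_univ (S.Bal (j + 1))), ← Sched.Poor]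
  nlinarith

lemma Data.moved_eq_empty (H : Data Kg S v j U a b) {k : ℕ} (hk : 2 ^ S.wd j ≤ k) :
    H.moved k = ∅ := dif_neg fun h => absurd h.2 hk.not_gt

lemma Data.dest_lt (H : Data Kg S v j U a b) (x : Fin n) : H.dest x < 2 ^ S.wd j := by
  have h := H.f_lt x
  rw [pow_succ] at h
  unfold Data.dest
  split_ifs with h1 h2 h2 <;> try omega
  by_contra hc
  rw [H.moved_eq_empty (not_lt.1 hc)] at h2
  simp at h2

lemma Data.point_zero (H : Data Kg S v j U a b) : H.point 0 = a := by
  funext i; simp [Data.point, vsum]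

lemma Data.point_succ (H : Data Kg S v j U a b) (k : ℕ) (i : Fin d) :
    H.point (k + 1) i = H.point k i + vsum v (H.child k) i := by
  simp only [Data.point, Data.child]
  rw [vsum_filter_lt_succ, add_assoc]
  rfl

lemma Data.point_last (H : Data Kg S v j U a b) (i : Fin d) :
    H.point (2 ^ S.wd j) i = a i + vsum v (rest Kg S v j U) i := by
  simp only [Data.point]
  rw [Finset.filter_true_of_mem fun x _ => H.dest_lt x]

lemma stepConclusion (hKg : 0 < Kg) (hK : 0 ≤ P.K) (hCb : 1 / eta Kg ≤ P.Cb)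
    (hCb15 : 15 * (P.K + 1) ≤ P.Cb) (hyp : Hyp S v j U a b) (H : Data Kg S v j U a b)
    (hchild : ∀ k, k < 2 ^ S.wd j → ChildOK S v j (H.child k))
    (hpot : PotOK S j a ∧ PotOK S j b ∧ ∀ k, 0 < k → k < 2 ^ S.wd j →
      PotOK S j (H.point k) ∧
      PotOK S j (fun i => H.point k i + vsum v (singles Kg S v j U) i)) :
    StepConclusion S v j U a b := by
  obtain ⟨ha, hb, hp⟩ := hpot
  have node : ∀ k, k < 2 ^ S.wd j → ∀ p q : Fin d → ℝ, PotOK S j p → PotOK S j q →
      (∀ i, q i = p i + vsum v (H.child k) i) → StepPart S v (j + 1) (H.child k) p q :=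
    fun k hk p q h1 h2 h3 => Or.inl
      ⟨h3, (hchild k hk).1, (hchild k hk).2.1, (hchild k hk).2.2, h1, h2⟩
  have hsum : ∀ i, b i = a i + vsum v (rest Kg S v j U) i + vsum v (singles Kg S v j U) i :=
    fun i => by rw [vsum_rest, hyp.node.sum_eq i]; ring
  by_cases hw : S.wide j = true
  · refine ⟨2 ^ S.wd j, fun k => H.child k, fun k => H.point k, fun x => ?_, fun k k' h => ?_,
      H.point_zero, ?_, fun k => ?_⟩
    · simp only [Data.child, Finset.mem_filter, rest, singles_wide hw, Finset.sdiff_empty]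
      exact ⟨fun h => ⟨⟨_, H.dest_lt x⟩, h, rfl⟩, fun ⟨_, h, _⟩ => h⟩
    · exact Finset.disjoint_left.2 fun x h1 h2 =>
        h (Fin.ext ((Finset.mem_filter.1 h1).2.symm.trans (Finset.mem_filter.1 h2).2))
    · funext i
      simp only [Fin.val_last]
      rw [H.point_last, hsum i, singles_wide hw]
      simp [vsum]
    · have hlast : H.point (2 ^ S.wd j) = b := by
        funext i
        rw [H.point_last, hsum i, singles_wide hw]
        simp [vsum]
      have hk : (k : ℕ) < 2 ^ S.wd j := k.isLt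
      have hok : ∀ m, m ≤ 2 ^ S.wd j → PotOK S j (H.point m) := fun m hm => by
        rcases Nat.eq_zero_or_pos m with rfl | hm0
        · rw [H.point_zero]; exact ha
        rcases hm.eq_or_lt with rfl | hm1
        · rw [hlast]; exact hb
        · exact (hp m hm0 hm1).1
      simp only [Fin.val_castSucc, Fin.val_succ]
      exact node k hk _ _ (hok k hk.le) (hok (k + 1) hk) (H.point_succ k)
  · rw [Bool.not_eq_true] at hw
    have hF : 2 ^ S.wd j = 2 := by rw [S.wd_binary hw]; norm_num
    set q : Fin d → ℝ := fun i => H.point 1 i + vsum v (singles Kg S v j U) i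
    obtain ⟨h1, h1'⟩ := hp 1 one_pos (by omega)
    have hsingle : StepPart S v (j + 1) (singles Kg S v j U) (H.point 1) q := by
      refine Or.inr ⟨?_, fun i => rfl, ?_⟩
      · have he : 0 < eta Kg := by unfold eta; positivity
        refine le_trans ?_ hCb
        rw [le_div_iff₀ he]
        exact singles_card hKg hyp.node
      · have h2 := h1.sum_sq hyp.g_nonneg hK
        have h3 := S.Bud_nonneg hyp.valid (by nlinarith) (j + 1)
        have h4 : (0 : ℝ) ≤ d := d.cast_nonneg
        nlinarith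
    have hlast : ∀ i, b i = q i + vsum v (H.child 1) i := fun i => by
      have h3 := H.point_last i
      have h4 := H.point_succ 1 i
      rw [hF] at h3
      simp only [q]
      rw [hsum i, ← h3, h4]; ring
    refine ⟨3, ![H.child 0, singles Kg S v j U, H.child 1], ![a, H.point 1, q, b],
      fun x => ?_, ?_, rfl, rfl, ?_⟩
    · have hd := H.dest_lt x
      rw [hF] at hd
      have hS := @singles_subset n d P g Kg S v j U
      constructor
      · intro hx
        by_cases hs : x ∈ singles Kg S v j U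
        · exact ⟨1, hs⟩
        have hr : x ∈ rest Kg S v j U := Finset.mem_sdiff.2 ⟨hx, hs⟩
        interval_cases h : H.dest x
        · exact ⟨0, Finset.mem_filter.2 ⟨hr, h⟩⟩
        · exact ⟨2, Finset.mem_filter.2 ⟨hr, h⟩⟩
      · rintro ⟨k, hk⟩
        fin_cases k
        · exact rest_subset (Finset.mem_filter.1 hk).1
        · exact hS hk
        · exact rest_subset (Finset.mem_filter.1 hk).1
    · have hd : ∀ k, Disjoint (H.child k) (singles Kg S v j U) := fun k =>
        Finset.disjoint_left.2 fun x hx hs =>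
          (Finset.mem_sdiff.1 (Finset.mem_filter.1 hx).1).2 hs
      have hc : Disjoint (H.child 0) (H.child 1) := Finset.disjoint_left.2 fun x h h' =>
        zero_ne_one ((Finset.mem_filter.1 h).2.symm.trans (Finset.mem_filter.1 h').2)
      intro k k' h
      fin_cases k <;> fin_cases k' <;>
        first
          | exact absurd rfl h
          | exact hd _
          | exact (hd _).symm
          | exact hc
          | exact hc.symm
    · intro k
      fin_cases k
      · exact node 0 (by omega) _ _ ha h1 (fun i => by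
          simpa [H.point_zero] using H.point_succ 0 i)
      · exact hsingle
      · exact node 1 (by omega) _ _ h1' hb hlast

/-- The one-step theorem follows from its three parts. -/
theorem stepProp_of (h : ∃ Kg : ℝ, 1 ≤ Kg ∧ DataProp Kg ∧ ChildProp Kg ∧ PotProp Kg) :
    StepProp := by
  obtain ⟨Kg, hKg, h1, h2, h3⟩ := h
  obtain ⟨K₁, hs⟩ := h1.and (h2.and h3)
  obtain ⟨e, he, hs⟩ := hs (max K₁ 1) (le_max_left _ _) (le_max_right _ _)
  obtain ⟨c, hs⟩ := hs (min e 1) (lt_min he one_pos) (min_le_left _ _)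
  obtain ⟨cb, hs⟩ := hs (max c 1) (le_max_left _ _) (le_max_right _ _)
  set Cb := max (max cb 1) (max (1 / eta Kg) (15 * (max K₁ 1 + 1)))
  obtain ⟨hd, hc, hp⟩ := hs Cb (le_max_of_le_left (le_max_left _ _))
    (le_max_of_le_left (le_max_right _ _))
  refine ⟨⟨max K₁ 1, max c 1, min e 1, 1 / 16, Cb⟩, lt_of_lt_of_le one_pos (le_max_right K₁ 1),
    le_max_right c 1, lt_min he one_pos,
    min_le_right e 1, (by norm_num : (0 : ℝ) ≤ 1 / 16), le_max_of_le_left (le_max_right _ _), ?_⟩
  intro n d g S hS hg v hv j U a b hN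
  obtain ⟨H⟩ := hd n d g S v j U a b ⟨hS, hg, hv, hN⟩
  exact stepConclusion (by linarith) (zero_le_one.trans (le_max_right K₁ 1))
    (le_max_of_le_right (le_max_left _ _)) (le_max_of_le_right (le_max_right _ _))
    ⟨hS, hg, hv, hN⟩ H (hc n d g S v j U a b ⟨hS, hg, hv, hN⟩ H)
    ⟨(hp n d g S v j U a b ⟨hS, hg, hv, hN⟩).1, (hp n d g S v j U a b ⟨hS, hg, hv, hN⟩).2.1,
      (hp n d g S v j U a b ⟨hS, hg, hv, hN⟩).2.2 H⟩

end Step

end Vale.Agent.P262
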