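import Vale.Agent.P262.Step.Data
import Vale.Agent.P262.Lin

/-!
# P262: the endpoint potential in one step

Old endpoints keep the invariant, and so do the boundaries made by the transfers.
-/

open scoped BigOperators

namespace Vale.Agent.P262

variable {n d : ℕ} {P : Consts} {g : Fin d → ℝ}

/-- `count_inv_sqrt` with one constant for all dimensions. -/
lemma count_inv_sqrt_fin : ∃ C : ℝ, 0 < C ∧
    ∀ (d : ℕ) (B : Finset (Fin d)) (D : Fin d → ℝ) (ε κ : ℝ), 1 ≤ κ → (∀ i ∈ B, κ ≤ D i) →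
      (∀ x : ℝ, 1 ≤ x → ((B.filter fun i => D i ≤ x).card : ℝ) ≤ ε * x ^ (1 / 16 : ℝ)) →
      ∑ i ∈ B, (Real.sqrt (D i))⁻¹ ≤ C * ε * κ ^ (-(7 / 16) : ℝ) := by
  obtain ⟨C, hC, h⟩ := count_inv_sqrt (ι := ℕ)
  refine ⟨C, hC, fun d B D ε κ hκ hD hB => ?_⟩
  set D' : ℕ → ℝ := fun k => if hk : k < d then D ⟨k, hk⟩ else κ with hD'
  have e : ∀ i : Fin d, D' i = D i := fun i => by simp [hD', i.isLt]
  have := h (B.map Fin.valEmbedding) D' ε κ hκ (by simpa [e] using hD) (fun x hx => by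
    simpa [Finset.filter_map, Function.comp_def, e] using hB x hx)
  simpa [e] using this

namespace Sched

variable (S : Sched P g)

lemma kappa_ge (hC : 1 ≤ P.C0) (j : ℕ) : P.C0 ≤ kappa P.C0 (S.wd j) := by
  have h : (1 : ℝ) ≤ (S.wd j : ℝ) := by exact_mod_cast S.wd_pos j
  exact le_mul_of_one_le_right (by linarith) (Real.one_le_rpow h (by norm_num))

lemma not_wide_prev (hS : S.Valid) {j : ℕ} (h : S.wide j = true) :
    ¬ (0 < j ∧ S.wide (j - 1) = true) := by
  rintro ⟨h0, h1⟩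
  have := hS.wide_next (j - 1) h1
  rw [Nat.sub_add_cancel h0, h] at this
  exact Bool.false_ne_true this.symm

/-- The potential weight of a poor coordinate grows by at least `1 / θ`. -/
lemma beta_step (hS : S.Valid) {j : ℕ} {i : Fin d} (hi : i ∈ S.Poor j) :
    S.beta j i + (S.theta j i)⁻¹ ≤ S.beta (j + 1) i := by
  have hb : i ∉ S.Bal j := (Finset.mem_sdiff.1 hi).2
  have ht : 0 < (S.theta j i)⁻¹ := inv_pos.2 (S.theta_pos j i)
  cases hw : S.wide j
  · have hage : S.age (j + 1) i = S.age j i + 1 := by simp [Sched.age, hb, hw]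
    simp only [Sched.beta, hage, Finset.sum_range_succ, Nat.add_sub_cancel, hw]
    simp only [Sched.theta] at ht ⊢
    split_ifs with h1 h2 <;> first | (exfalso; simp_all; done) | linarith
  · have hage : S.age (j + 1) i = S.age j i := by simp [Sched.age, hw]
    simp only [Sched.beta, Sched.theta, hage, Nat.add_sub_cancel, if_neg (S.not_wide_prev hS hw),
      hw, Nat.succ_pos, and_self, if_true]
    linarith

end Sched

namespace Step

variable {Kg : ℝ} {S : Sched P g} {v : Fin n → Fin d → ℝ} {j : ℕ} {U : Finset (Fin n)}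
  {a b : Fin d → ℝ}

/-! ## Potential lemmas -/

/-- The endpoint invariant of the current step. -/
def OldOK (S : Sched P g) (j : ℕ) (p : Fin d → ℝ) : Prop :=
  ∀ τ : ℝ, (∑ i ∈ S.Poor j, p i ^ 2 / S.beta j i) +
    (∑ i ∈ (S.Bal j).filter (fun i => g i ≤ τ), p i ^ 2) ≤
    S.Bud j + P.K * ((S.Bal j).filter (fun i => g i ≤ τ)).card

lemma OldOK.interp (ha : OldOK S j a) (hb : OldOK S j b) {w k : ℕ} (hk : k ≤ 2 ^ w) :
    OldOK S j (interp w k a b) := by
  intro τ
  have h0 : 0 ≤ (k : ℝ) / 2 ^ w := by positivity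
  have h1 : (k : ℝ) / 2 ^ w ≤ 1 := by
    rw [div_le_one (by positivity)]; exact_mod_cast hk
  set s := (k : ℝ) / 2 ^ w
  have hsq : ∀ i, Step.interp w k a b i ^ 2 ≤ (1 - s) * a i ^ 2 + s * b i ^ 2 := fun i => by
    show ((1 - s) * a i + s * b i) ^ 2 ≤ _
    nlinarith [mul_nonneg (mul_nonneg h0 (sub_nonneg.2 h1)) (sq_nonneg (a i - b i))]
  have e1 : ∑ i ∈ S.Poor j, Step.interp w k a b i ^ 2 / S.beta j i ≤
      (1 - s) * ∑ i ∈ S.Poor j, a i ^ 2 / S.beta j i +
        s * ∑ i ∈ S.Poor j, b i ^ 2 / S.beta j i := by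
    rw [Finset.mul_sum, Finset.mul_sum, ← Finset.sum_add_distrib]
    refine Finset.sum_le_sum fun i _ => ?_
    rw [mul_div_assoc', mul_div_assoc', ← add_div]
    exact div_le_div_of_nonneg_right (hsq i) (by linarith [S.two_le_beta j i])
  have e2 : ∑ i ∈ (S.Bal j).filter (fun i => g i ≤ τ), Step.interp w k a b i ^ 2 ≤
      (1 - s) * ∑ i ∈ (S.Bal j).filter (fun i => g i ≤ τ), a i ^ 2 +
        s * ∑ i ∈ (S.Bal j).filter (fun i => g i ≤ τ), b i ^ 2 := by
    rw [Finset.mul_sum, Finset.mul_sum, ← Finset.sum_add_distrib]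
    exact Finset.sum_le_sum fun i _ => hsq i
  nlinarith [mul_le_mul_of_nonneg_left (ha τ) (sub_nonneg.2 h1),
    mul_le_mul_of_nonneg_left (hb τ) h0]

/-- The invariant read on the sets of the next step. -/
lemma OldOK.next {p : Fin d → ℝ} (h : OldOK S j p) (hg : ∀ i, 0 ≤ g i) (τ : ℝ) :
    (∑ i ∈ S.Poor j, p i ^ 2 / S.beta j i) + (∑ i ∈ S.New j, p i ^ 2) +
      (∑ i ∈ (S.Bal (j + 1)).filter (fun i => g i ≤ τ), p i ^ 2) ≤
      S.Bud j + P.K * ((S.New j).card + ((S.Bal (j + 1)).filter (fun i => g i ≤ τ)).card) := by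
  obtain ⟨σ, hσ⟩ : ∃ σ : ℝ, (S.Bal j).filter (fun i => g i ≤ σ) =
      S.New j ∪ (S.Bal (j + 1)).filter (fun i => g i ≤ τ) := by
    rcases ((S.Bal (j + 1)).filter (fun i => g i ≤ τ)).eq_empty_or_nonempty with h0 | ⟨k, hk⟩
    · rw [h0, Finset.union_empty]
      rcases (S.New j).eq_empty_or_nonempty with hN | hN
      · refine ⟨-1, ?_⟩
        rw [hN, Finset.filter_eq_empty_iff]
        intro i _
        linarith [hg i]
      · obtain ⟨i₀, hi₀, hmax⟩ := (S.New j).exists_max_image g hN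
        refine ⟨g i₀, ?_⟩
        ext i
        simp only [Finset.mem_filter]
        constructor
        · rintro ⟨hi, hle⟩
          refine Finset.mem_sdiff.2 ⟨hi, fun hb => ?_⟩
          linarith [S.new_lt_bal hi₀ hb]
        · exact fun hi => ⟨(Finset.mem_sdiff.1 hi).1, hmax i hi⟩
    · obtain ⟨hk, hkτ⟩ := Finset.mem_filter.1 hk
      refine ⟨τ, ?_⟩
      ext i
      simp only [Finset.mem_filter, Finset.mem_union]
      constructor
      · rintro ⟨hi, hle⟩
        by_cases hb : i ∈ S.Bal (j + 1)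
        · exact Or.inr ⟨hb, hle⟩
        · exact Or.inl (Finset.mem_sdiff.2 ⟨hi, hb⟩)
      · rintro (hi | ⟨hi, hle⟩)
        · exact ⟨(Finset.mem_sdiff.1 hi).1, ((S.new_lt_bal hi hk).trans_le hkτ).le⟩
        · exact ⟨S.Bal_succ_subset j hi, hle⟩
  have hd : Disjoint (S.New j) ((S.Bal (j + 1)).filter fun i => g i ≤ τ) :=
    Finset.disjoint_left.2 fun i hi hi' =>
      (Finset.mem_sdiff.1 hi).2 (Finset.mem_filter.1 hi').1
  have := h σ
  rw [hσ, Finset.sum_union hd, Finset.card_union_of_disjoint hd, Nat.cast_add] at this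
  linarith

/-- The factor of the poor mass in the allowance. -/
noncomputable def gain (S : Sched P g) (j : ℕ) : ℝ :=
  if S.wide j then (S.wd j : ℝ) + 1 else 1

lemma wd_le_gain : (S.wd j : ℝ) ≤ gain S j := by
  unfold gain
  split_ifs with h
  · linarith
  · rw [S.wd_binary (Bool.not_eq_true _ ▸ h)]; simp

lemma sq_split {X e β θ β' : ℝ} (hβ : 0 < β) (hθ : 0 < θ) (h : β + θ⁻¹ ≤ β') :
    (X + e) ^ 2 / β' ≤ X ^ 2 / β + θ * e ^ 2 := by
  refine (div_le_div_of_nonneg_left (sq_nonneg _) (by positivity) h).trans ?_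
  rw [div_le_iff₀ (by positivity)]
  have e1 : (X ^ 2 / β + θ * e ^ 2) * (β + θ⁻¹) - (X + e) ^ 2 =
      (X - β * θ * e) ^ 2 / (β * θ) := by
    field_simp
    ring
  have : 0 ≤ (X - β * θ * e) ^ 2 / (β * θ) := by positivity
  linarith

lemma good_filter (hS : S.Valid) (hC : 1 ≤ P.C0) {i : Fin d} (hi : i ∈ S.Bal (j + 1)) :
    (((S.Bal (j + 1)).filter (fun k => g k ≤ g i)).card : ℝ) ≤
      P.ε * S.D (j + 1) i ^ (1 / 16 : ℝ) := by
  refine le_trans ?_ (hS.good (j + 1) j.succ_pos _ (hC.trans (hS.bal_large j i hi)))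
  exact_mod_cast Finset.card_le_card fun k hk => by
    simp only [Finset.mem_filter] at hk ⊢
    exact ⟨hk.1, div_le_div_of_nonneg_right hk.2 (by positivity)⟩

lemma potOK_of_old (hS : S.Valid) (hg : ∀ i, 0 ≤ g i) (hK : 0 ≤ P.K) (hCb : P.K ≤ P.Cb)
    {p : Fin d → ℝ} (h : OldOK S j p) : PotOK S j p := by
  intro τ
  have h1 := h.next hg τ
  have h2 : ∑ i ∈ S.Poor (j + 1), p i ^ 2 / S.beta (j + 1) i ≤
      (∑ i ∈ S.Poor j, p i ^ 2 / S.beta j i) + ∑ i ∈ S.New j, p i ^ 2 := by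
    rw [S.poor_succ, Finset.sum_union (S.disjoint_poor_new j)]
    refine add_le_add (Finset.sum_le_sum fun i hi => ?_) (Finset.sum_le_sum fun i _ => ?_)
    · refine div_le_div_of_nonneg_left (sq_nonneg _) (by linarith [S.two_le_beta j i]) ?_
      linarith [S.beta_step hS hi, inv_pos.2 (S.theta_pos j i)]
    · exact div_le_self (sq_nonneg _) (by linarith [S.two_le_beta (j + 1) i])
  have h3 : 0 ≤ gain S j * S.Tb j :=
    mul_nonneg (le_trans (Nat.cast_nonneg _) wd_le_gain) (S.Tb_nonneg hS (hK.trans hCb) j)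
  have h4 : S.Bud (j + 1) = S.Bud j + P.Cb * (S.W j + gain S j * S.Tb j) := S.Bud_succ j
  have h5 : P.K * (S.New j).card ≤ P.Cb * S.W j :=
    mul_le_mul hCb (hS.new_card j) (Nat.cast_nonneg _) (hK.trans hCb)
  have h6 := mul_nonneg (hK.trans hCb) h3
  rw [h4]
  linarith

/-- A perturbed and clipped interpolation satisfies the invariant. -/
lemma potOK_new (hS : S.Valid) (hg : ∀ i, 0 ≤ g i) (hC : 1 ≤ P.C0) {K' Cp Cn : ℝ}
    (hK' : 0 ≤ K') (hKK : K' ≤ P.K) (hε : P.K * P.ε ≤ 1 / 4)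
    (hCp : 0 ≤ Cp) (hCn : 0 ≤ Cn) (hCb : P.K + Cp + Cn ≤ P.Cb)
    {X p δ : Fin d → ℝ} (hX : OldOK S j X)
    (hA : ∀ i ∈ S.Bal (j + 1), p i = X i - clip (S.D (j + 1) i) (X i) + δ i)
    (hδ : ∀ τ : ℝ, ((S.Bal (j + 1)).filter (fun i => g i ≤ τ)).Nonempty →
      ∑ i ∈ (S.Bal (j + 1)).filter (fun i => g i ≤ τ), δ i ^ 2 ≤
        K' * ((S.Bal (j + 1)).filter (fun i => g i ≤ τ)).card)
    (hB : ∑ i ∈ S.Poor j, S.theta j i * (p i - X i) ^ 2 ≤ Cp * (gain S j * S.Tb j))
    (hN : ∑ i ∈ S.New j, (p i - X i) ^ 2 ≤ Cn * S.W j) : PotOK S j p := by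
  intro τ
  set B := S.Bal (j + 1)
  set Sτ := B.filter (fun i => g i ≤ τ) with hSτ
  set c : Fin d → ℝ := fun i => Real.sqrt (Real.sqrt (S.D (j + 1) i)) with hc
  have hD1 : ∀ i ∈ B, 1 ≤ S.D (j + 1) i := fun i hi => hC.trans (hS.bal_large j i hi)
  have hcard : ∀ i ∈ B, P.K * (B.filter fun k => g k ≤ g i).card ≤
      1 / 4 * Real.sqrt (S.D (j + 1) i) := fun i hi => by
    have h := good_filter hS hC hi
    have h' : S.D (j + 1) i ^ (1 / 16 : ℝ) ≤ Real.sqrt (S.D (j + 1) i) := by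
      rw [Real.sqrt_eq_rpow]
      exact Real.rpow_le_rpow_of_exponent_le (hD1 i hi) (by norm_num)
    have h0 : 0 ≤ S.D (j + 1) i ^ (1 / 16 : ℝ) := Real.rpow_nonneg (by linarith [hD1 i hi]) _
    calc P.K * (B.filter fun k => g k ≤ g i).card ≤ P.K * (P.ε * S.D (j + 1) i ^ (1 / 16 : ℝ)) :=
          mul_le_mul_of_nonneg_left h (hK'.trans hKK)
      _ ≤ 1 / 4 * S.D (j + 1) i ^ (1 / 16 : ℝ) := by
          rw [← mul_assoc]; exact mul_le_mul_of_nonneg_right hε h0
      _ ≤ _ := by linarith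
  have hc2 : ∀ i, c i ^ 2 = Real.sqrt (S.D (j + 1) i) := fun i =>
    Real.sq_sqrt (Real.sqrt_nonneg _)
  -- the perturbation is below half the cap
  have hδcap : ∀ i ∈ B, |δ i| ≤ c i / 2 := fun i hi => by
    have hm : i ∈ B.filter (fun k => g k ≤ g i) := Finset.mem_filter.2 ⟨hi, le_rfl⟩
    have h1 : δ i ^ 2 ≤ 1 / 4 * Real.sqrt (S.D (j + 1) i) :=
      ((Finset.single_le_sum (fun k _ => sq_nonneg (δ k)) hm).trans (hδ _ ⟨i, hm⟩)).trans
        ((mul_le_mul_of_nonneg_right hKK (Nat.cast_nonneg _)).trans (hcard i hi))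
    have h2 : 0 ≤ c i := Real.sqrt_nonneg _
    exact abs_le_of_sq_le_sq (by rw [div_pow, hc2]; linarith) (by linarith)
  have hsmall : ∀ i ∈ B, |X i| ≤ c i → p i = δ i := fun i hi h => by
    have : clip (S.D (j + 1) i) (X i) = X i := by
      rw [clip, min_eq_right (abs_le.1 h).2, max_eq_right (abs_le.1 h).1]
    rw [hA i hi, this]; ring
  have hlarge : ∀ i ∈ B, c i < |X i| → p i ^ 2 ≤ X i ^ 2 - 3 / 4 * c i ^ 2 := fun i hi h => by
    have h0 : 0 ≤ c i := Real.sqrt_nonneg _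
    have h1 : |p i| ≤ |X i| - c i / 2 := by
      have hd := abs_le.1 (hδcap i hi)
      rw [hA i hi, clip]
      rcases le_or_gt 0 (X i) with hx | hx
      · rw [abs_of_nonneg hx] at h ⊢
        rw [min_eq_left h.le, max_eq_right (by simp only [hc] at h0 ⊢; linarith)]
        simp only [hc] at h hd h0 ⊢
        rw [abs_le]; constructor <;> linarith
      · rw [abs_of_neg hx] at h ⊢
        simp only [hc] at h hd h0 ⊢
        rw [min_eq_right (by linarith), max_eq_left (by linarith), abs_le]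
        constructor <;> linarith
    have h2 := mul_self_le_mul_self (abs_nonneg _) h1
    rw [abs_mul_abs_self] at h2
    nlinarith [abs_mul_abs_self (X i), mul_le_mul_of_nonneg_left h.le h0]
  -- the coordinates outside the balanced set
  have hout : ∑ i ∈ S.Poor (j + 1), p i ^ 2 / S.beta (j + 1) i ≤
      (∑ i ∈ S.Poor j, X i ^ 2 / S.beta j i) + (∑ i ∈ S.New j, X i ^ 2) +
        Cp * (gain S j * S.Tb j) + Cn * S.W j := by
    rw [S.poor_succ, Finset.sum_union (S.disjoint_poor_new j)]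
    have e1 : ∑ i ∈ S.Poor j, p i ^ 2 / S.beta (j + 1) i ≤ (∑ i ∈ S.Poor j, X i ^ 2 / S.beta j i) +
        ∑ i ∈ S.Poor j, S.theta j i * (p i - X i) ^ 2 := by
      rw [← Finset.sum_add_distrib]
      refine Finset.sum_le_sum fun i hi => ?_
      have := sq_split (X := X i) (e := p i - X i) (by linarith [S.two_le_beta j i])
        (S.theta_pos j i) (S.beta_step hS hi)
      simpa using this
    have e2 : ∑ i ∈ S.New j, p i ^ 2 / S.beta (j + 1) i ≤
        (∑ i ∈ S.New j, X i ^ 2) + ∑ i ∈ S.New j, (p i - X i) ^ 2 := by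
      rw [← Finset.sum_add_distrib]
      refine Finset.sum_le_sum fun i _ => ?_
      rw [div_le_iff₀ (by linarith [S.two_le_beta (j + 1) i])]
      nlinarith [S.two_le_beta (j + 1) i, sq_nonneg (X i - (p i - X i)), sq_nonneg (X i),
        sq_nonneg (p i - X i)]
    linarith
  -- the balanced set
  obtain ⟨τ', hτ'⟩ : ∃ τ' : ℝ, ∑ i ∈ Sτ, p i ^ 2 +
      P.K * (B.filter fun i => g i ≤ τ').card ≤
      (∑ i ∈ B.filter (fun i => g i ≤ τ'), X i ^ 2) + P.K * Sτ.card := by
    have hsplit : ∀ i ∈ B, p i ^ 2 ≤ δ i ^ 2 +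
        (if c i < |X i| then X i ^ 2 - 3 / 4 * c i ^ 2 else 0) := fun i hi => by
      split_ifs with h
      · linarith [hlarge i hi h, sq_nonneg (δ i)]
      · rw [hsmall i hi (not_lt.1 h)]; linarith
    have hδS : ∑ i ∈ Sτ, δ i ^ 2 ≤ P.K * Sτ.card := by
      rcases Sτ.eq_empty_or_nonempty with h0 | h0
      · simp [h0]
      · exact (hδ τ h0).trans (mul_le_mul_of_nonneg_right hKK (Nat.cast_nonneg _))
    have hsum : ∑ i ∈ Sτ, p i ^ 2 ≤ P.K * Sτ.card +
        ∑ i ∈ Sτ.filter (fun i => c i < |X i|), (X i ^ 2 - 3 / 4 * c i ^ 2) := by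
      rw [Finset.sum_filter (s := Sτ)]
      refine le_trans (Finset.sum_le_sum fun i hi => hsplit i (Finset.filter_subset _ _ hi)) ?_
      rw [Finset.sum_add_distrib]
      linarith
    rcases (Sτ.filter fun i => c i < |X i|).eq_empty_or_nonempty with h0 | h0
    · refine ⟨-1, ?_⟩
      have : B.filter (fun i => g i ≤ -1) = ∅ :=
        Finset.filter_eq_empty_iff.2 fun i _ => by linarith [hg i]
      rw [this]
      rw [h0] at hsum
      simpa using hsum
    · obtain ⟨i₀, hi₀, hmax⟩ := Finset.exists_max_image _ g h0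
      have hi₀B : i₀ ∈ B := (Finset.mem_filter.1 (Finset.mem_filter.1 hi₀).1).1
      refine ⟨g i₀, ?_⟩
      have h1 : ∑ i ∈ Sτ.filter (fun i => c i < |X i|), (X i ^ 2 - 3 / 4 * c i ^ 2) ≤
          (∑ i ∈ B.filter (fun i => g i ≤ g i₀), X i ^ 2) - 3 / 4 * c i₀ ^ 2 := by
        rw [Finset.sum_sub_distrib]
        refine sub_le_sub ?_ ?_
        · exact Finset.sum_le_sum_of_subset_of_nonneg (fun i hi => Finset.mem_filter.2
            ⟨(Finset.mem_filter.1 (Finset.mem_filter.1 hi).1).1, hmax i hi⟩)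
            fun i _ _ => sq_nonneg _
        · exact Finset.single_le_sum (f := fun i => 3 / 4 * c i ^ 2) (fun i _ => by positivity) hi₀
      have h2 := hcard i₀ hi₀B
      rw [← hc2] at h2
      nlinarith [sq_nonneg (c i₀)]
  have hold := hX.next hg τ'
  have h4 : S.Bud (j + 1) = S.Bud j + P.Cb * (S.W j + gain S j * S.Tb j) := S.Bud_succ j
  have hCb0 : 0 ≤ P.Cb := by linarith
  have h3 : 0 ≤ gain S j * S.Tb j :=
    mul_nonneg (le_trans (Nat.cast_nonneg _) wd_le_gain) (S.Tb_nonneg hS hCb0 j)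
  have h5 : P.K * (S.New j).card ≤ P.K * S.W j :=
    mul_le_mul_of_nonneg_left (hS.new_card j) (hK'.trans hKK)
  have h6 : (P.K + Cn) * S.W j ≤ P.Cb * S.W j :=
    mul_le_mul_of_nonneg_right (by linarith) (hS.W_nonneg j)
  have h7 : Cp * (gain S j * S.Tb j) ≤ P.Cb * (gain S j * S.Tb j) :=
    mul_le_mul_of_nonneg_right (by linarith [hK'.trans hKK]) h3
  rw [h4]
  linarith

/-! ## The boundaries of one step -/

/-- The coefficients of the error of the transfers at one boundary. -/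
noncomputable def err {k : ℕ} {R : Finset (Fin n)} {f : Fin n → ℕ} (B : Bdry Kg S v j R f k a b)
    (x : Fin n) : ℝ :=
  side f k x * ((if x ∈ B.M then 1 else 0) - (1 / 4 + side f k x * B.shift x))

lemma lin_pair_side (A : Finset (Fin n)) (f : Fin n → ℕ) {k : ℕ} (hk : 0 < k) (i : Fin d) :
    lin v (pair A f k) (side f k) i = delta A v f k i := by
  simp only [lin, pair, side, delta, vsum, win, Finset.sum_filter, ← Finset.sum_sub_distrib]
  refine Finset.sum_congr rfl fun x _ => ?_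
  by_cases h1 : f x = 2 * k
  · simp [h1, show 2 * k ≠ 2 * k - 1 by omega]
  · by_cases h2 : f x + 1 = 2 * k
    · simp [show f x = 2 * k - 1 by omega, show 2 * k - 1 ≠ 2 * k by omega,
        show 2 * k - 1 + 1 = 2 * k by omega]
    · simp [h1, h2, show f x ≠ 2 * k - 1 by omega]

lemma delta_eq (A : Finset (Fin n)) (f : Fin n → ℕ) {k : ℕ} (hk : 0 < k) (m : ℕ) (i : Fin d) :
    delta A v f k i = lin v A (pcoef f (2 * k + 1) m) i - 2 * lin v A (pcoef f (2 * k) m) i +
      lin v A (pcoef f (2 * k - 1) m) i := by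
  have e1 := vsum_filter_lt_succ (v := v) A f (2 * k) i
  have e2 := vsum_filter_lt_succ (v := v) A f (2 * k - 1) i
  rw [show 2 * k - 1 + 1 = 2 * k by omega] at e2
  simp only [lin_pcoef, delta]
  rw [Nat.cast_sub (show 1 ≤ 2 * k by omega)]
  push_cast
  rw [e1, e2]
  ring

lemma pre_sub_interp (hsum : ∀ i, b i = a i + vsum v U i) (f : Fin n → ℕ) (k : ℕ) (i : Fin d) :
    pre (rest Kg S v j U) v f k a i - interp (S.wd j) k a b i =
      lin v (rest Kg S v j U) (pcoef f (2 * k) (2 ^ (S.wd j + 1))) i -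
        (k : ℝ) / 2 ^ S.wd j * vsum v (singles Kg S v j U) i := by
  rw [lin_pcoef, vsum_rest]
  simp only [pre, interp, hsum i]
  push_cast
  rw [pow_succ, mul_comm (2 : ℝ) (k : ℝ), mul_div_mul_right _ _ two_ne_zero]
  ring

lemma Data.point_eq (H : Data Kg S v j U a b) {k : ℕ} (hk : 0 < k) (hk' : k < 2 ^ S.wd j)
    (i : Fin d) :
    H.point k i = pre (rest Kg S v j U) v H.f k a i + delta (rest Kg S v j U) v H.f k i / 4 +
      lin v (pair (rest Kg S v j U) H.f k) (H.bdry k hk hk').shift i +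
      lin v (pair (rest Kg S v j U) H.f k) (err (H.bdry k hk hk')) i := by
  set R := rest Kg S v j U
  set B := H.bdry k hk hk' with hB
  have hM : H.moved k = B.M := by rw [Data.moved, dif_pos ⟨hk, hk'⟩]
  have key : vsum v (R.filter fun x => H.dest x < k) i =
      vsum v (R.filter fun x => H.f x < 2 * k) i +
        lin v (pair R H.f k) (fun x => side H.f k x * if x ∈ B.M then 1 else 0) i := by
    simp only [vsum, lin, pair, Finset.sum_filter, ← Finset.sum_add_distrib]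
    refine Finset.sum_congr rfl fun x _ => ?_
    have hdest : ∀ q, H.f x = 2 * q → q ≠ k → (H.dest x < k ↔ q < k) := fun q hq hne => by
      simp only [Data.dest, hq, Nat.mul_mod_right, if_true,
        show 2 * q / 2 = q by omega]
      split_ifs <;> omega
    have hdest' : ∀ q, H.f x = 2 * q + 1 → q + 1 ≠ k → (H.dest x < k ↔ q < k) := fun q hq hne => by
      simp only [Data.dest, hq, show (2 * q + 1) % 2 = 1 by omega, one_ne_zero, if_false,
        show (2 * q + 1) / 2 = q by omega]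
      split_ifs <;> omega
    rcases Nat.even_or_odd' (H.f x) with ⟨q, hq | hq⟩
    · rcases eq_or_ne q k with rfl | hne
      · simp only [Data.dest, hq, Nat.mul_mod_right, if_true, show 2 * q / 2 = q by omega, hM,
          side, lt_irrefl, if_false, or_true, one_mul, zero_add]
        by_cases hx : x ∈ B.M
        · simp [hx, show q - 1 < q by omega]
        · simp [hx]
      · simp only [hdest q hq hne, hq, show ¬ (2 * q + 1 = 2 * k ∨ 2 * q = 2 * k) by omega,
          if_false, add_zero]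
        by_cases h : q < k <;> simp [h]
    · rcases eq_or_ne (q + 1) k with rfl | hne
      · simp only [Data.dest, hq, show (2 * q + 1) % 2 = 1 by omega, one_ne_zero, if_false,
          show (2 * q + 1) / 2 = q by omega, hM, side,
          show 2 * q + 1 ≠ 2 * (q + 1) by omega, show 2 * q + 1 + 1 = 2 * (q + 1) by omega,
          show 2 * q + 1 < 2 * (q + 1) by omega, true_or, if_true]
        by_cases hx : x ∈ B.M <;> simp [hx]
      · simp only [hdest' q hq hne, hq,
          show ¬ (2 * q + 1 + 1 = 2 * k ∨ 2 * q + 1 = 2 * k) by omega, if_false, add_zero]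
        by_cases h : q < k
        · simp [h, show 2 * q + 1 < 2 * k by omega]
        · simp [h, show ¬ 2 * q + 1 < 2 * k by omega]
  rw [Data.point, key, ← lin_pair_side _ _ hk]
  simp only [pre, lin, add_assoc, Finset.sum_div, ← Finset.sum_add_distrib]
  congr 2
  refine Finset.sum_congr rfl fun x _ => ?_
  have hs : side H.f k x * side H.f k x = 1 := by unfold side; split_ifs <;> norm_num
  have : err B x = side H.f k x * (if x ∈ B.M then 1 else 0) - side H.f k x / 4 -
      side H.f k x * side H.f k x * B.shift x := by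
    unfold err; ring
  rw [this, hs]
  ring

lemma vsum_sq_le (hv : ∀ x, ∑ i, v x i ^ 2 ≤ 1) (A : Finset (Fin n)) (Q : Finset (Fin d)) :
    ∑ i ∈ Q, vsum v A i ^ 2 ≤ (A.card : ℝ) ^ 2 := by
  calc ∑ i ∈ Q, vsum v A i ^ 2 ≤ ∑ i, (A.card : ℝ) * ∑ x ∈ A, v x i ^ 2 :=
        (Finset.sum_le_sum fun i _ => sq_sum_le_card_mul_sum_sq).trans
          (Finset.sum_le_sum_of_subset_of_nonneg (Finset.subset_univ _)
            fun i _ _ => mul_nonneg (Nat.cast_nonneg _) (Finset.sum_nonneg fun x _ => sq_nonneg _))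
    _ ≤ _ := by
        rw [← Finset.mul_sum, Finset.sum_comm, sq]
        exact mul_le_mul_of_nonneg_left ((Finset.sum_le_sum fun x _ => hv x).trans (by simp))
          (Nat.cast_nonneg _)

lemma five_sq (p q r u e' s c : ℝ) (hc : |c| ≤ 1) :
    ((p / 2 + q / 4 + r / 4) + u + e' + c * s) ^ 2 ≤
      4 * (p ^ 2 + q ^ 2 + r ^ 2 + u ^ 2 + e' ^ 2 + s ^ 2) := by
  have h1 : (c * s) ^ 2 ≤ s ^ 2 := by
    rw [mul_pow]
    exact mul_le_of_le_one_left (sq_nonneg _) ((sq_le_one_iff_abs_le_one _).2 hc)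
  have h2 : (p / 2 + q / 4 + r / 4) ^ 2 ≤ p ^ 2 + q ^ 2 + r ^ 2 := by
    nlinarith [sq_nonneg (p - q), sq_nonneg (p - r), sq_nonneg (q - r)]
  generalize c * s = t at h1
  generalize p / 2 + q / 4 + r / 4 = y at h2
  nlinarith [sq_nonneg (y - u), sq_nonneg (y - e'), sq_nonneg (y - t), sq_nonneg (u - e'),
    sq_nonneg (u - t), sq_nonneg (e' - t)]

/-- The constant of the perturbation of a boundary on balanced coordinates. -/
noncomputable def deltaConst (Kg : ℝ) : ℝ := 2 * Kg + 2 / eta Kg ^ 2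

/-- The constant of a boundary on poor coordinates. -/
noncomputable def poorConst (Kg : ℝ) : ℝ := 4 * (4 * Kg + 2 + 1 / eta Kg)

/-- The constant of a boundary on new coordinates. -/
noncomputable def newConst (Kg C0 : ℝ) : ℝ := 8 * (4 * Kg + 12 * (C0 + 4 * Kg))

lemma point_diff
    (hyp : Hyp S v j U a b) (H : Data Kg S v j U a b) {k : ℕ} (hk : 0 < k)
    (hk' : k < 2 ^ S.wd j) (t : ℝ) (i : Fin d) :
    H.point k i + t * vsum v (singles Kg S v j U) i - interp (S.wd j) k a b i =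
      (lin v (rest Kg S v j U) (pcoef H.f (2 * k) (2 ^ (S.wd j + 1))) i / 2 +
        lin v (rest Kg S v j U) (pcoef H.f (2 * k + 1) (2 ^ (S.wd j + 1))) i / 4 +
        lin v (rest Kg S v j U) (pcoef H.f (2 * k - 1) (2 ^ (S.wd j + 1))) i / 4) +
      lin v (pair (rest Kg S v j U) H.f k) (H.bdry k hk hk').shift i +
      lin v (pair (rest Kg S v j U) H.f k) (err (H.bdry k hk hk')) i +
      (t - (k : ℝ) / 2 ^ S.wd j) * vsum v (singles Kg S v j U) i := by
  have h1 := pre_sub_interp (Kg := Kg) (S := S) (j := j) hyp.node.sum_eq H.f k i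
  have h2 := delta_eq (v := v) (rest Kg S v j U) H.f hk (2 ^ (S.wd j + 1)) i
  rw [H.point_eq hk hk']
  linarith

lemma point_bal
    (H : Data Kg S v j U a b) {k : ℕ} (hk : 0 < k)
    (hk' : k < 2 ^ S.wd j) (t : ℝ) (i : Fin d)
    (hi : i ∈ S.Bal (j + 1)) :
    H.point k i + t * vsum v (singles Kg S v j U) i = interp (S.wd j) k a b i -
      clip (S.D (j + 1) i) (interp (S.wd j) k a b i) +
      (lin v (pair (rest Kg S v j U) H.f k) (err (H.bdry k hk hk')) i +
        t * vsum v (singles Kg S v j U) i) := by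
  rw [H.point_eq hk hk', (H.bdry k hk hk').solve i hi, target]
  ring

lemma point_delta (hKg : 1 ≤ Kg)
    (hyp : Hyp S v j U a b) (H : Data Kg S v j U a b) {k : ℕ} (hk : 0 < k)
    (hk' : k < 2 ^ S.wd j) {t : ℝ} (ht0 : 0 ≤ t) (ht1 : t ≤ 1) :
    ∀ τ : ℝ, ((S.Bal (j + 1)).filter (fun i => g i ≤ τ)).Nonempty →
      ∑ i ∈ (S.Bal (j + 1)).filter (fun i => g i ≤ τ),
        (lin v (pair (rest Kg S v j U) H.f k) (err (H.bdry k hk hk')) i +
          t * vsum v (singles Kg S v j U) i) ^ 2 ≤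
        deltaConst Kg * ((S.Bal (j + 1)).filter (fun i => g i ≤ τ)).card := by
  have hv := hyp.norm_le
  set R := rest Kg S v j U with hR
  set A := singles Kg S v j U with hA
  set B := H.bdry k hk hk' with hB
  set pr := pair R H.f k with hpr
  set w := S.wd j with hw
  set e' := lin v pr (err B) with he'
  have heta : 0 < eta Kg := by unfold eta; positivity
  have hcardA : (A.card : ℝ) ≤ 1 / eta Kg := by
    rw [le_div_iff₀ heta]; exact singles_card (by linarith) hyp.node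
  intro τ hτ
  have h1 := (B.fresh).segment τ _ rfl hτ
  have h2 := vsum_sq_le hv A ((S.Bal (j + 1)).filter fun i => g i ≤ τ)
  set Sτ := (S.Bal (j + 1)).filter fun i => g i ≤ τ
  have hne : (1 : ℝ) ≤ Sτ.card := by exact_mod_cast hτ.card_pos
  have hc : (A.card : ℝ) ^ 2 ≤ 1 / eta Kg ^ 2 * Sτ.card := by
    have : (A.card : ℝ) ^ 2 ≤ 1 / eta Kg ^ 2 := by
      rw [← one_div_pow]; exact pow_le_pow_left₀ (Nat.cast_nonneg _) hcardA 2
    exact this.trans (le_mul_of_one_le_right (by positivity) hne)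
  have h3 : ∑ i ∈ Sτ, (e' i + t * vsum v A i) ^ 2 ≤
      2 * ∑ i ∈ Sτ, e' i ^ 2 + 2 * ∑ i ∈ Sτ, vsum v A i ^ 2 := by
    rw [Finset.mul_sum, Finset.mul_sum, ← Finset.sum_add_distrib]
    refine Finset.sum_le_sum fun i _ => ?_
    nlinarith [sq_nonneg (e' i - t * vsum v A i), mul_le_mul_of_nonneg_right
      (pow_le_one₀ ht0 ht1 : t ^ 2 ≤ 1) (sq_nonneg (vsum v A i))]
  refine h3.trans ?_
  have h4 : ∑ i ∈ Sτ, e' i ^ 2 ≤ Kg * Sτ.card := by
    have e : ((1 : ℕ) : ℝ) - 1 = 0 := by norm_num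
    rw [e, add_zero] at h1
    exact h1
  have e : deltaConst Kg * Sτ.card = 2 * (Kg * Sτ.card) + 2 * (1 / eta Kg ^ 2 * Sτ.card) := by
    unfold deltaConst; ring
  rw [e]
  linarith


lemma point_poor (hKg : 1 ≤ Kg)
    (hyp : Hyp S v j U a b) (H : Data Kg S v j U a b) {k : ℕ} (hk : 0 < k)
    (hk' : k < 2 ^ S.wd j) {t : ℝ} (ht0 : 0 ≤ t) (ht1 : t ≤ 1) :
    ∑ i ∈ S.Poor j, S.theta j i *
      (H.point k i + t * vsum v (singles Kg S v j U) i - interp (S.wd j) k a b i) ^ 2 ≤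
      poorConst Kg * (gain S j * S.Tb j) := by
  have hTb : 0 ≤ S.Tb j := le_trans (Finset.sum_nonneg fun i _ => mul_nonneg (S.theta_pos j i).le
    (gram_diag_nonneg v U i)) hyp.node.poor_le
  have hv := hyp.norm_le
  set R := rest Kg S v j U with hR
  set A := singles Kg S v j U with hA
  set B := H.bdry k hk hk' with hB
  set pr := pair R H.f k with hpr
  set w := S.wd j with hw
  set e' := lin v pr (err B) with he'
  have heta : 0 < eta Kg := by unfold eta; positivity
  have hcardA : (A.card : ℝ) ≤ 1 / eta Kg := by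
    rw [le_div_iff₀ heta]; exact singles_card (by linarith) hyp.node
  set m := 2 ^ (w + 1) with hm
  set F : ℝ := 2 ^ w with hF
  have hF1 : 1 ≤ F := one_le_pow₀ one_le_two
  have hkF : (k : ℝ) / F ≤ 1 := by
    rw [div_le_one (by linarith), hF]; exact_mod_cast hk'.le
  have hkF0 : 0 ≤ (k : ℝ) / F := by positivity
  have hm' : ∀ l, l ≤ 2 * k + 1 → l ≤ m := fun l hl => by
    rw [hm, pow_succ]; omega
  have hw1 : (1 : ℝ) ≤ w := by exact_mod_cast S.wd_pos j
  have hwr : (w : ℝ) ^ (1 / 8 : ℝ) ≤ w := Real.rpow_le_self_of_one_le hw1 (by norm_num)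
  set c2 := lin v R (pcoef H.f (2 * k) m) with hc2
  set c3 := lin v R (pcoef H.f (2 * k + 1) m) with hc3
  set c1 := lin v R (pcoef H.f (2 * k - 1) m) with hc1
  set dr := lin v pr B.shift with hdr
  have hdiff : ∀ i, H.point k i + t * vsum v A i - interp w k a b i =
      (c2 i / 2 + c3 i / 4 + c1 i / 4) + dr i + e' i + (t - k / F) * vsum v A i :=
    fun i => point_diff hyp H hk hk' t i
  have habs : |t - k / F| ≤ 1 := abs_le.2 ⟨by linarith, by linarith⟩
  simp only [hdiff]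
  set Q := S.Poor j
  set θ := S.theta j
  have hθ : ∀ i, 0 ≤ θ i := fun i => (S.theta_pos j i).le
  have hmass : ∀ V : Finset (Fin n), V ⊆ U → ∑ i ∈ Q, θ i * gram v V i i ≤ S.Tb j :=
    fun V hV => (Finset.sum_le_sum fun i _ =>
      mul_le_mul_of_nonneg_left (gram_diag_mono v hV i) (hθ i)).trans hyp.node.poor_le
  have hwin : ∀ l, l ≤ 2 * k + 1 →
      ∑ i ∈ Q, θ i * lin v R (pcoef H.f l m) i ^ 2 ≤ Kg * w * S.Tb j := fun l hl =>
    ((H.fresh l (hm' l hl)).poor).trans
      (mul_le_mul_of_nonneg_left (hmass R rest_subset) (by positivity))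
  have hpU : pr ⊆ U := (Finset.filter_subset _ _).trans rest_subset
  have hdr2 : ∑ i ∈ Q, θ i * dr i ^ 2 ≤ 2 * w * S.Tb j := by
    calc ∑ i ∈ Q, θ i * dr i ^ 2
        ≤ ∑ i ∈ Q, (∑ x ∈ pr, B.shift x ^ 2) * (θ i * gram v pr i i) :=
          Finset.sum_le_sum fun i _ => by
            rw [mul_left_comm]; exact mul_le_mul_of_nonneg_left (drift_sq v pr B.shift i) (hθ i)
      _ ≤ 2 * w * S.Tb j := by
          rw [← Finset.mul_sum]
          exact mul_le_mul (B.shift_sq.trans (by linarith [B.cost_le]))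
            (hmass pr hpU) (Finset.sum_nonneg fun i _ =>
              mul_nonneg (hθ i) (gram_diag_nonneg v pr i)) (by positivity)
  have he2 : ∑ i ∈ Q, θ i * e' i ^ 2 ≤ Kg * S.Tb j := by
    have := B.fresh.poor
    simp only [Nat.cast_one, mul_one] at this
    exact this.trans (mul_le_mul_of_nonneg_left (hmass pr hpU) (by linarith))
  have hσ : ∑ i ∈ Q, θ i * vsum v A i ^ 2 ≤ 1 / eta Kg * S.Tb j := by
    calc ∑ i ∈ Q, θ i * vsum v A i ^ 2
        ≤ ∑ i ∈ Q, (A.card : ℝ) * (θ i * gram v A i i) :=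
          Finset.sum_le_sum fun i _ => by
            rw [mul_left_comm]
            refine mul_le_mul_of_nonneg_left ?_ (hθ i)
            simpa [vsum, gram, sq] using
              (sq_sum_le_card_mul_sum_sq (s := A) (f := fun x => v x i))
      _ ≤ _ := by
          rw [← Finset.mul_sum]
          exact mul_le_mul hcardA (hmass A singles_subset) (Finset.sum_nonneg fun i _ =>
            mul_nonneg (hθ i) (gram_diag_nonneg v A i)) (by positivity)
  calc ∑ i ∈ Q, θ i * ((c2 i / 2 + c3 i / 4 + c1 i / 4) + dr i + e' i +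
        (t - k / F) * vsum v A i) ^ 2
      ≤ 4 * ((∑ i ∈ Q, θ i * c2 i ^ 2) + (∑ i ∈ Q, θ i * c3 i ^ 2) +
          (∑ i ∈ Q, θ i * c1 i ^ 2) + (∑ i ∈ Q, θ i * dr i ^ 2) +
          (∑ i ∈ Q, θ i * e' i ^ 2) + (∑ i ∈ Q, θ i * vsum v A i ^ 2)) := by
        simp only [← Finset.sum_add_distrib, Finset.mul_sum]
        refine Finset.sum_le_sum fun i _ => ?_
        have := mul_le_mul_of_nonneg_left
          (five_sq (c2 i) (c3 i) (c1 i) (dr i) (e' i) (vsum v A i) _ habs) (hθ i)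
        linarith
    _ ≤ poorConst Kg * (w * S.Tb j) := by
        have a1 := hwin (2 * k) (by omega)
        have a2 := hwin (2 * k + 1) le_rfl
        have a3 := hwin (2 * k - 1) (by omega)
        have a4 : Kg * S.Tb j ≤ Kg * (w * S.Tb j) :=
          mul_le_mul_of_nonneg_left (le_mul_of_one_le_left hTb hw1) (by linarith)
        have a5 : 1 / eta Kg * S.Tb j ≤ 1 / eta Kg * (w * S.Tb j) :=
          mul_le_mul_of_nonneg_left (le_mul_of_one_le_left hTb hw1) (by positivity)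
        rw [← hc2] at a1
        rw [← hc3] at a2
        rw [← hc1] at a3
        unfold poorConst
        linarith
    _ ≤ poorConst Kg * (gain S j * S.Tb j) :=
        mul_le_mul_of_nonneg_left (mul_le_mul_of_nonneg_right wd_le_gain hTb)
          (by unfold poorConst; positivity)


lemma new_parent (hC : 1 ≤ P.C0) (hz : P.z0 ≤ 1) (hyp : Hyp S v j U a b) :
    ∑ i ∈ S.New j, ∑ l ∈ S.Bal (j + 1),
      (Real.sqrt (S.D (j + 1) l))⁻¹ * (gram v U i l / 2 ^ S.wd j) ^ 2 ≤
      kappa P.C0 (S.wd j) := by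
  set F : ℝ := 2 ^ S.wd j with hF
  have hF1 : 1 ≤ F := one_le_pow₀ one_le_two
  set κ := kappa P.C0 (S.wd j)
  set D := S.D (j + 1)
  have hκ1 : 1 ≤ κ := hC.trans (S.kappa_ge hC j)
  have hκ0 : 0 < κ := by linarith
  have hD : ∀ l ∈ S.Bal (j + 1), κ ≤ D l := fun l hl => S.kappa_le hl
  refine le_trans ?_ (mul_le_of_le_one_right hκ0.le (hyp.node.balance.trans hz))
  rw [Finset.mul_sum]
  refine (Finset.sum_le_sum fun i hi => ?_).trans (Finset.sum_le_sum_of_subset_of_nonneg
    Finset.sdiff_subset fun i _ _ => mul_nonneg hκ0.le (Finset.sum_nonneg fun l _ =>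
      mul_nonneg (zWeight_nonneg _ _) (sq_nonneg _)))
  rw [Finset.mul_sum]
  refine (Finset.sum_le_sum fun l hl => ?_).trans (Finset.sum_le_sum_of_subset_of_nonneg
    (S.Bal_succ_subset j) fun l _ _ =>
      mul_nonneg hκ0.le (mul_nonneg (zWeight_nonneg _ _) (sq_nonneg _)))
  have hne : i ≠ l := fun h => (Finset.mem_sdiff.1 hi).2 (h ▸ hl)
  have hDl : 1 ≤ D l := hκ1.trans (hD l hl)
  have hl' : S.D j l = D l * F := by
    rw [show D l = S.D j l / F from S.D_succ j l]
    field_simp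
  have hi' : max (S.D j i) 1 ≤ κ * F := by
    refine max_le ?_ (one_le_mul_of_one_le_of_one_le hκ1 hF1)
    have := S.lt_kappa hi
    rw [S.D_succ, div_lt_iff₀ (by positivity)] at this
    exact this.le
  have hzw : (κ * F * (Real.sqrt (D l) * Real.sqrt F))⁻¹ ≤ zWeight (S.D j i) (S.D j l) := by
    have h1 : 1 ≤ S.D j l := by rw [hl']; exact one_le_mul_of_one_le_of_one_le hDl hF1
    rw [zWeight, max_eq_left h1]
    have hsq : 0 < Real.sqrt (D l) * Real.sqrt F :=
      mul_pos (Real.sqrt_pos.2 (by linarith)) (Real.sqrt_pos.2 (by linarith))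
    calc (κ * F * (Real.sqrt (D l) * Real.sqrt F))⁻¹
        ≤ (max (S.D j i) 1 * (Real.sqrt (D l) * Real.sqrt F))⁻¹ :=
          inv_anti₀ (by positivity) (mul_le_mul_of_nonneg_right hi' hsq.le)
      _ = Real.sqrt (S.D j l) / (max (S.D j i) 1 * S.D j l) := by
          rw [hl', Real.sqrt_mul (by linarith)]
          have e1 := Real.mul_self_sqrt (show 0 ≤ D l by linarith)
          have e2 := Real.mul_self_sqrt (show 0 ≤ F by linarith)
          field_simp
          nlinarith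
      _ ≤ _ := div_le_div_of_nonneg_right (Real.sqrt_le_sqrt (le_max_right _ _))
          (by positivity)
  rw [if_neg hne, sub_zero]
  calc (Real.sqrt (D l))⁻¹ * (gram v U i l / F) ^ 2
      ≤ κ * ((κ * F * (Real.sqrt (D l) * Real.sqrt F))⁻¹ * gram v U i l ^ 2) := by
        rw [← mul_assoc, div_pow, mul_div_assoc', mul_comm (Real.sqrt (D l))⁻¹,
          mul_div_assoc, mul_comm (κ * _)]
        refine mul_le_mul_of_nonneg_left ?_ (sq_nonneg _)
        have hsD : 0 < Real.sqrt (D l) := Real.sqrt_pos.2 (by linarith)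
        have hsF : 0 < Real.sqrt F := Real.sqrt_pos.2 (by linarith)
        have hsF1 : Real.sqrt F ≤ F := Real.sqrt_le_left (by linarith) |>.2 (by nlinarith)
        rw [show κ * (κ * F * (Real.sqrt (D l) * Real.sqrt F))⁻¹ =
          (Real.sqrt (D l))⁻¹ / (F * Real.sqrt F) by field_simp]
        rw [sq]
        gcongr
    _ ≤ _ := mul_le_mul_of_nonneg_left
        (mul_le_mul_of_nonneg_right hzw (sq_nonneg _)) hκ0.le

lemma gram_pair (R : Finset (Fin n)) (f : Fin n → ℕ) {k : ℕ} (hk : 0 < k) {m : ℕ} {F : ℝ}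
    (hmF : (m : ℝ) = 2 * F) (hF0 : F ≠ 0) (i l : Fin d) :
    gram v (pair R f k) i l = gram v R i l / F +
      quad v R (pcoef f (2 * k + 1) m) i l - quad v R (pcoef f (2 * k - 1) m) i l := by
  have e1 := gram_filter_lt_succ (v := v) R f (2 * k) i l
  have e2 := gram_filter_lt_succ (v := v) R f (2 * k - 1) i l
  rw [show 2 * k - 1 + 1 = 2 * k by omega] at e2
  have e3 : gram v (pair R f k) i l =
      gram v (win R f (2 * k - 1)) i l + gram v (win R f (2 * k)) i l := by
    rw [← gram_union]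
    · congr 1
      ext x
      simp only [pair, win, Finset.mem_filter, Finset.mem_union]
      constructor
      · rintro ⟨h1, h2 | h2⟩
        · exact Or.inl ⟨h1, by omega⟩
        · exact Or.inr ⟨h1, h2⟩
      · rintro (⟨h1, h2⟩ | ⟨h1, h2⟩)
        · exact ⟨h1, Or.inl (by omega)⟩
        · exact ⟨h1, Or.inr h2⟩
    · exact Finset.disjoint_left.2 fun x h1 h2 => by
        simp only [win, Finset.mem_filter] at h1 h2; omega
  rw [quad_pcoef, quad_pcoef, e3, hmF, Nat.cast_sub (show 1 ≤ 2 * k by omega)]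
  push_cast
  rw [e1, e2]
  field_simp
  ring

lemma new_drift (hC : 1 ≤ P.C0) (hKg : 1 ≤ Kg) {R : Finset (Fin n)} {f : Fin n → ℕ} {k : ℕ}
    (B : Bdry Kg S v j R f k a b) {W : ℝ} (hwW : (S.wd j : ℝ) ≤ W)
    (hn : ((S.New j).card : ℝ) ≤ W)
    (hG : ∑ i ∈ S.New j, ∑ l ∈ S.Bal (j + 1),
      (Real.sqrt (S.D (j + 1) l))⁻¹ * gram v (pair R f k) i l ^ 2 ≤
      3 * (kappa P.C0 (S.wd j) + 2 * Kg * ((S.New j).card + S.wd j))) :
    ∑ i ∈ S.New j, lin v (pair R f k) B.shift i ^ 2 ≤ 12 * (P.C0 + 4 * Kg) * W := by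
  set pr := pair R f k
  set N := S.New j
  set Bs := S.Bal (j + 1)
  set w := S.wd j
  set κ := kappa P.C0 w
  set D := S.D (j + 1)
  set dr := lin v pr B.shift with hdr
  have hκ1 : 1 ≤ κ := hC.trans (S.kappa_ge hC j)
  have hκ0 : 0 < κ := by linarith
  have hD : ∀ l ∈ Bs, κ ≤ D l := fun l hl => S.kappa_le hl
  have hw1 : (1 : ℝ) ≤ w := by exact_mod_cast S.wd_pos j
  set Z := ∑ l ∈ Bs, Real.sqrt (D l) * B.z l ^ 2
  have h1 : ∀ i, dr i ^ 2 ≤ (∑ l ∈ Bs, (Real.sqrt (D l))⁻¹ * gram v pr i l ^ 2) * Z := fun i => by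
    have e : dr i = ∑ l ∈ Bs, gram v pr i l * B.z l := by
      rw [gram_mul_eq_lin, hdr]
      simp only [lin, B.shift_eq]
      rfl
    rw [e]
    refine Finset.sum_sq_le_sum_mul_sum_of_sq_le_mul _
      (fun l _ => by positivity) (fun l _ => by positivity) fun l hl => le_of_eq ?_
    have : 0 < Real.sqrt (D l) := Real.sqrt_pos.2 (by linarith [hD l hl])
    field_simp
  have hsκ : 0 < Real.sqrt κ := Real.sqrt_pos.2 hκ0
  have h2 : Z ≤ 4 * (w : ℝ) ^ (1 / 8 : ℝ) / Real.sqrt κ := by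
    rw [le_div_iff₀ hsκ, Finset.sum_mul]
    refine le_trans (Finset.sum_le_sum fun l hl => ?_)
      (B.energy.trans (by linarith [B.cost_le]))
    have := Real.mul_self_sqrt (show 0 ≤ D l by linarith [hD l hl])
    rw [mul_right_comm]
    refine mul_le_mul_of_nonneg_right ?_ (sq_nonneg _)
    calc Real.sqrt (D l) * Real.sqrt κ ≤ Real.sqrt (D l) * Real.sqrt (D l) :=
          mul_le_mul_of_nonneg_left (Real.sqrt_le_sqrt (hD l hl)) (Real.sqrt_nonneg _)
      _ = D l := this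
  have hZ0 : 0 ≤ Z := Finset.sum_nonneg fun l _ => by positivity
  set r := (w : ℝ) ^ (1 / 8 : ℝ)
  have hr0 : 0 ≤ r := by positivity
  have hwp : (0 : ℝ) < w := by linarith
  have hsκ' : Real.sqrt κ = Real.sqrt P.C0 * (w : ℝ) ^ (7 / 16 : ℝ) := by
    rw [show κ = P.C0 * (w : ℝ) ^ (7 / 8 : ℝ) from rfl, Real.sqrt_mul (by linarith),
      Real.sqrt_eq_rpow ((w : ℝ) ^ _), ← Real.rpow_mul hwp.le]
    norm_num
  have hsC : Real.sqrt P.C0 ≤ P.C0 := Real.sqrt_le_left (by linarith) |>.2 (by nlinarith)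
  have h3 : r * Real.sqrt κ ≤ P.C0 * w := by
    rw [hsκ', mul_left_comm, ← Real.rpow_add hwp]
    exact mul_le_mul hsC (Real.rpow_le_self_of_one_le hw1 (by norm_num)) (by positivity)
      (by linarith)
  have h4 : r ≤ Real.sqrt κ := by
    rw [hsκ']
    exact le_trans (Real.rpow_le_rpow_of_exponent_le hw1 (by norm_num))
      (le_mul_of_one_le_left (by positivity) (Real.one_le_sqrt.2 hC))
  calc ∑ i ∈ N, dr i ^ 2
      ≤ (∑ i ∈ N, ∑ l ∈ Bs, (Real.sqrt (D l))⁻¹ * gram v pr i l ^ 2) * Z := by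
        rw [Finset.sum_mul]; exact Finset.sum_le_sum fun i _ => h1 i
    _ ≤ 3 * (κ + 2 * Kg * (N.card + w)) * (4 * r / Real.sqrt κ) :=
        mul_le_mul hG h2 hZ0 (by positivity)
    _ = 12 * (r * Real.sqrt κ) + 24 * Kg * (N.card + w) * (r / Real.sqrt κ) := by
        have := Real.mul_self_sqrt hκ0.le
        field_simp
        linear_combination (-12 * r) * this
    _ ≤ 12 * (P.C0 * W) + 24 * Kg * (2 * W) * 1 := by
        have e1 : r * Real.sqrt κ ≤ P.C0 * W :=
          h3.trans (mul_le_mul_of_nonneg_left hwW (by linarith))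
        have e2 : (N.card : ℝ) + w ≤ 2 * W := by linarith
        have e3 : r / Real.sqrt κ ≤ 1 := (div_le_one hsκ).2 h4
        refine add_le_add (mul_le_mul_of_nonneg_left e1 (by norm_num))
          (mul_le_mul (mul_le_mul_of_nonneg_left e2 (by positivity)) e3 (by positivity) ?_)
        exact mul_nonneg (by positivity) (by linarith)
    _ = _ := by ring

lemma point_new (hKg : 1 ≤ Kg) (hC : 1 ≤ P.C0) (hz : P.z0 ≤ 1)
    (hsum : ∑ k ∈ S.Bal (j + 1), (Real.sqrt (S.D (j + 1) k))⁻¹ ≤ 1)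
    (hyp : Hyp S v j U a b) (H : Data Kg S v j U a b) {k : ℕ} (hk : 0 < k)
    (hk' : k < 2 ^ S.wd j) {t : ℝ} (ht0 : 0 ≤ t) (ht1 : t ≤ 1) :
    ∑ i ∈ S.New j,
      (H.point k i + t * vsum v (singles Kg S v j U) i - interp (S.wd j) k a b i) ^ 2 ≤
      newConst Kg P.C0 * S.W j := by
  have hS := hyp.valid
  have hv := hyp.norm_le
  set R := rest Kg S v j U with hR
  set A := singles Kg S v j U with hA
  set B := H.bdry k hk hk' with hB
  set pr := pair R H.f k with hpr
  set w := S.wd j with hw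
  set e' := lin v pr (err B) with he'
  have heta : 0 < eta Kg := by unfold eta; positivity
  have hcardA : (A.card : ℝ) ≤ 1 / eta Kg := by
    rw [le_div_iff₀ heta]; exact singles_card (by linarith) hyp.node
  set m := 2 ^ (w + 1) with hm
  set F : ℝ := 2 ^ w with hF
  have hF1 : 1 ≤ F := one_le_pow₀ one_le_two
  have hkF : (k : ℝ) / F ≤ 1 := by
    rw [div_le_one (by linarith), hF]; exact_mod_cast hk'.le
  have hkF0 : 0 ≤ (k : ℝ) / F := by positivity
  have hm' : ∀ l, l ≤ 2 * k + 1 → l ≤ m := fun l hl => by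
    rw [hm, pow_succ]; omega
  have hw1 : (1 : ℝ) ≤ w := by exact_mod_cast S.wd_pos j
  have hwr : (w : ℝ) ^ (1 / 8 : ℝ) ≤ w := Real.rpow_le_self_of_one_le hw1 (by norm_num)
  set c2 := lin v R (pcoef H.f (2 * k) m) with hc2
  set c3 := lin v R (pcoef H.f (2 * k + 1) m) with hc3
  set c1 := lin v R (pcoef H.f (2 * k - 1) m) with hc1
  set dr := lin v pr B.shift with hdr
  have hdiff : ∀ i, H.point k i + t * vsum v A i - interp w k a b i =
      (c2 i / 2 + c3 i / 4 + c1 i / 4) + dr i + e' i + (t - k / F) * vsum v A i :=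
    fun i => point_diff hyp H hk hk' t i
  have habs : |t - k / F| ≤ 1 := abs_le.2 ⟨by linarith, by linarith⟩
  have hmF : (m : ℝ) = 2 * F := by rw [hm, hF]; push_cast; ring
  simp only [hdiff]
  cases hwide : S.wide j
  · rw [hS.new_binary j hwide]
    simpa using mul_nonneg (show 0 ≤ newConst Kg P.C0 by unfold newConst; positivity)
      (hS.W_nonneg j)
  set N := S.New j
  set Bs := S.Bal (j + 1)
  set κ := kappa P.C0 w
  set D := S.D (j + 1)
  have hA0 : A = ∅ := singles_wide hwide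
  have hRU : R = U := by rw [hR, rest, ← hA, hA0, Finset.sdiff_empty]
  have hκC : P.C0 ≤ κ := S.kappa_ge hC j
  have hκ1 : 1 ≤ κ := hC.trans hκC
  have hκ0 : 0 < κ := by linarith
  have hD : ∀ l ∈ Bs, κ ≤ D l := fun l hl => S.kappa_le hl
  have hn : (N.card : ℝ) ≤ S.W j := hS.new_card j
  have hwW : (w : ℝ) ≤ S.W j := hS.width_le j hwide
  have hcross : ∀ l, l ≤ 2 * k + 1 →
      ∑ i ∈ N, lin v R (pcoef H.f l m) i ^ 2 ≤ Kg * (N.card + w) := fun l hl =>
    (H.fresh l (hm' l hl)).cross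
  have he2 : ∑ i ∈ N, e' i ^ 2 ≤ Kg * (N.card + w) := by
    have := B.fresh.cross
    simp only [Nat.cast_one] at this
    exact this.trans (by gcongr)
  -- the weighted entries of the Gram matrix of the two windows
  have hω : ∀ M : Fin d → Fin d → ℝ, ∑ i, ∑ l, omega' S j i l * M i l =
      ∑ i ∈ N, ∑ l ∈ Bs, (Real.sqrt (D l))⁻¹ * M i l := fun M => by
    rw [← Finset.sum_subset (Finset.subset_univ N) fun i _ hi => Finset.sum_eq_zero fun l _ => by
      rw [omega', if_neg (fun h => hi h.1), zero_mul]]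
    refine Finset.sum_congr rfl fun i hi => ?_
    rw [← Finset.sum_subset (Finset.subset_univ Bs) fun l _ hl => by
      rw [omega', if_neg (fun h => hl h.2), zero_mul]]
    exact Finset.sum_congr rfl fun l hl => by rw [omega', if_pos ⟨hi, hl⟩]
  have hq : ∀ l, l ≤ 2 * k + 1 →
      ∑ i ∈ N, ∑ i' ∈ Bs, (Real.sqrt (D i'))⁻¹ * quad v R (pcoef H.f l m) i i' ^ 2 ≤
        Kg * (N.card + w) := fun l hl => by
    have h := (H.fresh l (hm' l hl)).bal'
    rw [hω] at h
    refine h.trans (mul_le_mul_of_nonneg_left (add_le_add ?_ ?_) (by linarith))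
    · have := hω fun _ _ => 1
      simp only [mul_one] at this
      rw [this, Finset.sum_const, nsmul_eq_mul]
      exact mul_le_of_le_one_right (Nat.cast_nonneg _) hsum
    · exact mul_le_of_le_one_right (by positivity)
        (inv_le_one_of_one_le₀ (Real.one_le_sqrt.2 hκ1))
  have hpar : ∑ i ∈ N, ∑ l ∈ Bs, (Real.sqrt (D l))⁻¹ * (gram v R i l / F) ^ 2 ≤ κ := by
    rw [hRU]; exact new_parent hC hz hyp
  have hgram : ∀ i l, gram v pr i l = gram v R i l / F +
      quad v R (pcoef H.f (2 * k + 1) m) i l - quad v R (pcoef H.f (2 * k - 1) m) i l :=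
    fun i l => gram_pair R H.f hk hmF (by positivity) i l
  have hG : ∑ i ∈ N, ∑ l ∈ Bs, (Real.sqrt (D l))⁻¹ * gram v pr i l ^ 2 ≤
      3 * (κ + 2 * Kg * (N.card + w)) := by
    have : ∑ i ∈ N, ∑ l ∈ Bs, (Real.sqrt (D l))⁻¹ * gram v pr i l ^ 2 ≤
        3 * ((∑ i ∈ N, ∑ l ∈ Bs, (Real.sqrt (D l))⁻¹ * (gram v R i l / F) ^ 2) +
          (∑ i ∈ N, ∑ l ∈ Bs,
            (Real.sqrt (D l))⁻¹ * quad v R (pcoef H.f (2 * k + 1) m) i l ^ 2) +
          (∑ i ∈ N, ∑ l ∈ Bs,
            (Real.sqrt (D l))⁻¹ * quad v R (pcoef H.f (2 * k - 1) m) i l ^ 2)) := by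
      simp only [← Finset.sum_add_distrib, Finset.mul_sum]
      refine Finset.sum_le_sum fun i _ => Finset.sum_le_sum fun l _ => ?_
      rw [hgram, ← mul_add, ← mul_add, mul_left_comm]
      refine mul_le_mul_of_nonneg_left ?_ (by positivity)
      set x := gram v R i l / F
      set y := quad v R (pcoef H.f (2 * k + 1) m) i l
      set z := quad v R (pcoef H.f (2 * k - 1) m) i l
      nlinarith [sq_nonneg (x - y), sq_nonneg (x + z), sq_nonneg (y + z)]
    have a1 := hq (2 * k + 1) le_rfl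
    have a2 := hq (2 * k - 1) (by omega)
    linarith
  have hdr2 : ∑ i ∈ N, dr i ^ 2 ≤ 12 * (P.C0 + 4 * Kg) * S.W j :=
    new_drift hC hKg B hwW hn hG
  calc ∑ i ∈ N, ((c2 i / 2 + c3 i / 4 + c1 i / 4) + dr i + e' i +
        (t - k / F) * vsum v A i) ^ 2
      ≤ 4 * ((∑ i ∈ N, c2 i ^ 2) + (∑ i ∈ N, c3 i ^ 2) + (∑ i ∈ N, c1 i ^ 2) +
          (∑ i ∈ N, dr i ^ 2) + (∑ i ∈ N, e' i ^ 2)) := by
        simp only [← Finset.sum_add_distrib, Finset.mul_sum]
        refine Finset.sum_le_sum fun i _ => ?_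
        have := five_sq (c2 i) (c3 i) (c1 i) (dr i) (e' i) (vsum v A i) _ habs
        have h0 : vsum v A i = 0 := by simp [hA0, vsum]
        simp only [h0] at this ⊢
        linarith
    _ ≤ newConst Kg P.C0 * S.W j := by
        have a1 := hcross (2 * k) (by omega)
        have a2 := hcross (2 * k + 1) le_rfl
        have a3 := hcross (2 * k - 1) (by omega)
        rw [← hc2] at a1
        rw [← hc3] at a2
        rw [← hc1] at a3
        have a4 : Kg * (N.card + w) ≤ Kg * (2 * S.W j) :=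
          mul_le_mul_of_nonneg_left (by linarith) (by linarith)
        have a5 : 0 ≤ Kg * S.W j := mul_nonneg (by linarith) (hS.W_nonneg j)
        have a6 : 0 ≤ P.C0 * S.W j := mul_nonneg (by linarith) (hS.W_nonneg j)
        unfold newConst
        linarith


lemma point_pot (hKg : 1 ≤ Kg) (hC : 1 ≤ P.C0) (hε : P.K * P.ε ≤ 1 / 4)
    (hK : deltaConst Kg ≤ P.K) (hz : P.z0 ≤ 1)
    (hCb : P.K + poorConst Kg + newConst Kg P.C0 ≤ P.Cb)
    (hsum : ∑ k ∈ S.Bal (j + 1), (Real.sqrt (S.D (j + 1) k))⁻¹ ≤ 1)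
    (hyp : Hyp S v j U a b) (H : Data Kg S v j U a b) {k : ℕ} (hk : 0 < k)
    (hk' : k < 2 ^ S.wd j) {t : ℝ} (ht0 : 0 ≤ t) (ht1 : t ≤ 1) :
    PotOK S j (fun i => H.point k i + t * vsum v (singles Kg S v j U) i) :=
  potOK_new hyp.valid hyp.g_nonneg hC (by unfold deltaConst; positivity) hK hε
    (by unfold poorConst eta; positivity) (by unfold newConst; positivity) hCb
    (OldOK.interp hyp.node.pot_fst hyp.node.pot_snd hk'.le)
    (fun i hi => point_bal H hk hk' t i hi) (point_delta hKg hyp H hk hk' ht0 ht1)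
    (point_poor hKg hyp H hk hk' ht0 ht1) (point_new hKg hC hz hsum hyp H hk hk' ht0 ht1)

/-- The endpoint part of the one-step theorem. -/
theorem potProp {Kg : ℝ} (hKg : 1 ≤ Kg) : PotProp Kg := by
  obtain ⟨Cc, hCc, hcount⟩ := count_inv_sqrt_fin
  refine ⟨deltaConst Kg, fun K hK hK1 => ⟨min (1 / (4 * K)) (1 / Cc), by positivity,
    fun ε hε hε' => ⟨1, fun C0 _ hC => ⟨K + poorConst Kg + newConst Kg C0,
      fun Cb hCb _ => ?_⟩⟩⟩⟩
  intro n d g S v j U a b hyp
  have hS := hyp.valid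
  have hp : 0 ≤ poorConst Kg := by unfold poorConst eta; positivity
  have hn : 0 ≤ newConst Kg C0 := by unfold newConst; positivity
  have hεK : K * ε ≤ 1 / 4 := by
    have := hε'.trans (min_le_left _ _)
    rw [le_div_iff₀ (by positivity)] at this
    linarith
  have hsum : ∑ k ∈ S.Bal (j + 1), (Real.sqrt (S.D (j + 1) k))⁻¹ ≤ 1 := by
    have h1 := hcount d (S.Bal (j + 1)) (S.D (j + 1)) ε _ (hC.trans (S.kappa_ge hC j))
      (fun i hi => S.kappa_le hi) (fun x hx => hS.good (j + 1) j.succ_pos x hx)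
    have h2 : Cc * ε ≤ 1 := by
      have := hε'.trans (min_le_right _ _)
      rw [le_div_iff₀ hCc] at this
      linarith
    exact h1.trans ((mul_le_of_le_one_right (by positivity)
      (Real.rpow_le_one_of_one_le_of_nonpos (hC.trans (S.kappa_ge hC j)) (by norm_num))).trans h2)
  refine ⟨potOK_of_old hS hyp.g_nonneg (by show (0 : ℝ) ≤ K; linarith)
      (by show K ≤ Cb; linarith) hyp.node.pot_fst,
    potOK_of_old hS hyp.g_nonneg (by show (0 : ℝ) ≤ K; linarith) (by show K ≤ Cb; linarith)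
      hyp.node.pot_snd, fun H k hk hk' => ?_⟩
  have hmain : ∀ t : ℝ, 0 ≤ t → t ≤ 1 →
      PotOK S j (fun i => H.point k i + t * vsum v (singles Kg S v j U) i) := fun t =>
    point_pot hKg hC hεK hK (by show (1 : ℝ) / 16 ≤ 1; norm_num) hCb hsum hyp H hk hk'
  exact ⟨by simpa using hmain 0 le_rfl zero_le_one, by simpa using hmain 1 zero_le_one le_rfl⟩

end Step

end Vale.Agent.P262
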